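import Vale.Agent.P180.Bdl.B2

/-!
P180, normal series: a bound for the order of a normal subgroup `B` of bounded type, once no
further reduction inside `B` is possible.
-/

namespace Vale.Agent.P180.H768

open Vale.Agent.P180

open scoped Nat

universe u

variable {k : Type u} [Field k]

theorem caseB_bound {p m n : ℕ} [Fact p.Prime] [CharP k p] {G : Type} [Group G] [Finite G]
    {B : Subgroup G} [B.Normal] (hM : Cls p m B) {Z : Subgroup G} (hZB : Z ≤ B)
    (hZ : ∀ z ∈ Z, ∀ g, z * g = g * z) (hpZ : ¬ p ∣ Nat.card Z)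
    {D : Subgroup G} {a b : MonoidAlgebra k G} (hb : IsBlock b)
    (ha : a ∈ Fix (cj k G) D)
    (hba : b = tr (cj k G) D ⊤ a) (hDn : Nat.card D ≤ n)
    (hST : ∀ N : Subgroup G, N.Normal → ∀ e : MonoidAlgebra k G, IsBlockOf N e → b * e ≠ 0 →
      ∀ g, cj k G g e = e)
    (hNR : ∀ N Y : Subgroup G, N.Normal → Y.Normal → Z ≤ N → N ≤ B → Y ≤ N → IsPGroup p Y →
      (∀ y ∈ Y, ∀ x ∈ N, y * x = x * y) → ∀ e : MonoidAlgebra k G, IsBlockOf N e →
      b * e ≠ 0 → (∃ z ∈ SubAlg k N, z ∈ Fix (cj k G) Y ∧ e = tr (cj k G) Y N z) →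
      Nat.card N = Nat.card Z * Nat.card Y) :
    Z.relIndex B ≤ n ! * (n * m)! * n := by
  classical
  have hb1 := isBlock_iff.mp hb
  have hbF : b ∈ Fix (cj k G) ⊤ := hb1.mem.2
  have hbc : ∀ x, x * b = b * x := fun x => commute_of_mem (SubAlg_top x) hbF
  have hZn : Z.Normal := by
    constructor
    intro z hz g
    rw [← hZ z hz g, mul_inv_cancel_right]
    exact hz
  obtain ⟨V', hVn', hVp', hVmax'⟩ := exists_Op (p := p) (G := G)
  set V := V' ⊓ B with hVdef
  have hVn : V.Normal := inferInstance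
  have hVp : IsPGroup p V := hVp'.to_le inf_le_left
  have hVmax : ∀ P : Subgroup G, P.Normal → IsPGroup p P → P ≤ B → P ≤ V :=
    fun P h1 h2 h3 => le_inf (hVmax' P h1 h2) h3
  have hVD : V ≤ D := op_le p hVp hb.idem hb.ne_zero ha hba
  have hVcard : Nat.card V ≤ n := (Nat.card_le_card_of_injective _
    (Subgroup.inclusion_injective hVD)).trans hDn
  set C' := Subgroup.centralizer (V : Set G) with hCdef'
  have hCn' : C'.Normal := inferInstance
  set C := C' ⊓ B with hCdef
  have hCn : C.Normal := inferInstance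
  have hCB : C ≤ B := inf_le_right
  set Y0 := V ⊓ C with hY0
  have hY0n : Y0.Normal := inferInstance
  have hY0p : IsPGroup p Y0 := hVp.to_le inf_le_left
  set W := Z ⊔ Y0 with hWdef
  have hWn : W.Normal := inferInstance
  have hZC : Z ≤ C := by
    intro z hz
    refine Subgroup.mem_inf.mpr ⟨?_, hZB hz⟩
    rw [hCdef', Subgroup.mem_centralizer_iff]
    intro v _
    exact (hZ z hz v).symm
  have hWC : W ≤ C := sup_le hZC inf_le_right
  have hcent : ∀ w ∈ W, ∀ c ∈ C, w * c = c * w := by
    have h1 : W ≤ Subgroup.centralizer (C : Set G) := by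
      refine sup_le ?_ ?_
      · intro z hz
        rw [Subgroup.mem_centralizer_iff]
        intro v _
        exact (hZ z hz v).symm
      · intro y hy
        rw [Subgroup.mem_centralizer_iff]
        intro c hc
        exact ((Subgroup.mem_centralizer_iff.mp (Subgroup.mem_inf.mp hc).1) y
          (Subgroup.mem_inf.mp hy).1).symm
    intro w hw c hc
    exact (Subgroup.mem_centralizer_iff.mp (h1 hw) c hc).symm
  have hcardW : Nat.card W = Nat.card Z * Nat.card Y0 := card_sup_eq hpZ hY0p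
  have hrelW : Y0.relIndex W = Nat.card Z := relIndex_sup_eq hpZ hY0p
  have hY0W : Y0 ≤ W := le_sup_right
  -- the application of the group theory
  obtain ⟨𝒮, h1, h2, h3, h4⟩ := group_theory_W' C W B hM hWC hcent (by
    intro X hXn hWX hXC hXW
    refine ⟨?_, ?_, ?_⟩
    · intro hX
      apply hXW
      refine le_antisymm ?_ hWX
      have hX' : ∀ x ∈ X, ∃ n : ℕ, x ^ p ^ n ∈ Z := by
        intro x hx
        obtain ⟨i, hi⟩ := hX x hx
        obtain ⟨z, hz, y, hy, hzy⟩ := mem_sup_of_commute (fun z hz y _ => hZ z hz y) hi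
        obtain ⟨j, hj⟩ := hY0p ⟨y, hy⟩
        have hj' : y ^ p ^ j = 1 := congrArg Subtype.val hj
        refine ⟨i + j, ?_⟩
        rw [pow_add, pow_mul, ← hzy, (show Commute z y from hZ z hz y).mul_pow, hj', mul_one]
        exact Z.pow_mem hz _
      obtain ⟨P, hPn, hPp, hPX, hXP⟩ := exists_normal_pSubgroup hZ hpZ
        ((le_sup_left (a := Z) (b := Y0)).trans hWX) hX'
      refine hXP.trans (sup_le le_sup_left ?_)
      exact (le_inf (hVmax P hPn hPp ((hPX.trans hXC).trans hCB)) (hPX.trans hXC)).trans hY0W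
    · by_contra hnd
      apply hXW
      have hY0X : Y0 ≤ X := hY0W.trans hWX
      have hnd' : ¬ p ∣ Y0.relIndex X := by
        rw [← Subgroup.relIndex_mul_relIndex _ _ _ hY0W hWX, hrelW]
        intro hd
        rcases (Nat.Prime.dvd_mul Fact.out).mp hd with h | h
        · exact hpZ h
        · exact hnd h
      obtain ⟨e, he, hbe⟩ := exists_isPrimIn (ZAlg k X) ZAlg_comm hb.ne_zero
      have hcard := hNR X Y0 hXn hY0n ((le_sup_left (a := Z) (b := Y0)).trans hWX) (hXC.trans hCB) hY0X hY0p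
        (fun y hy x hx => hcent y (hY0W hy) x (hXC hx)) e he hbe
        ⟨_, Subalgebra.smul_mem _ he.mem.1 _, Subalgebra.smul_mem _ (Fix_mono _ hY0X he.mem.2) _,
          eq_tr_of_not_dvd p hnd' he.mem.2⟩
      rw [← hcardW] at hcard
      exact (Subgroup.eq_of_le_of_card_ge hWX hcard.le).symm
    · intro hXM
      exact hXW (le_antisymm (fun x hx => hXM (Subgroup.mem_inf.mpr ⟨hx, hCB (hXC hx)⟩)) hWX))
  -- the subgroup `E`
  set E := W ⊔ sSup 𝒮 with hE
  have hSE : ∀ S ∈ 𝒮, S ≤ E := fun S hS => (le_sSup hS).trans le_sup_right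
  have hsupn : ∀ 𝒯 : Set (Subgroup G),
      (∀ S ∈ 𝒯, ∀ g : G, S.map (MulAut.conj g).toMonoidHom ∈ 𝒯) → (W ⊔ sSup 𝒯).Normal := by
    intro 𝒯 h𝒯
    have h5 : (sSup 𝒯).Normal := by
      constructor
      intro x hx g
      have h6 : sSup 𝒯 ≤ (sSup 𝒯).comap (MulAut.conj g).toMonoidHom := by
        refine sSup_le fun S hS => ?_
        rw [← Subgroup.map_le_iff_le_comap]
        exact le_sSup (h𝒯 S hS g)
      exact h6 hx
    infer_instance
  have hEn : E.Normal := hsupn 𝒮 h3
  have hWcentE : ∀ S ∈ 𝒮, ∀ w ∈ W, ∀ x ∈ S, w * x = x * w :=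
    fun S hS w hw x hx => hcent w hw x ((h1 S hS).2.1 hx)
  obtain ⟨e, he, hbe⟩ := exists_isPrimIn (ZAlg k E) ZAlg_comm hb.ne_zero
  have hest := hST E hEn e he hbe
  have hbee : b * e = b := mul_stable_eq hb1 he hest hbe
  obtain ⟨x, a', ha'E, ha'F, hea'⟩ := covering he hb.idem (by rwa [hbc e]) ha hba
  set R := E ⊓ conjS x D with hR
  have hRcard : Nat.card R ≤ n := by
    refine le_trans ?_ hDn
    have h5 : Nat.card (conjS x D) = Nat.card D :=
      Nat.card_congr (D.equivMapOfInjective _ (MulAut.conj x).injective).symm.toEquiv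
    rw [← h5]
    exact Nat.card_le_card_of_injective _ (Subgroup.inclusion_injective inf_le_right)
  -- blocks of `S` are fixed by `E`
  have hfix : ∀ S ∈ 𝒮, ∀ f : MonoidAlgebra k G, IsBlockOf S f → f ∈ Fix (cj k G) E := by
    intro S hS f hf
    have h5 : E ≤ stabE f := by
      refine sup_le ?_ (sSup_le ?_)
      · exact (h1 S hS).1.trans (le_stabE hf)
      · intro S' hS'
        by_cases hSS : S = S'
        · rw [← hSS]; exact le_stabE hf
        · intro y hy
          rw [mem_stabE]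
          exact cj_eq_self_of_commute hf.mem.1 fun s hs => (h2 S hS S' hS' hSS s hs y hy).symm
    exact fun g hg => h5 hg
  -- normality of `S` in `E`
  have hSinv : ∀ S ∈ 𝒮, ∀ y ∈ E, ∀ s ∈ S, y * s * y⁻¹ ∈ S := by
    intro S hS
    have h5 : E ≤ Subgroup.normalizer (S : Set G) := by
      refine sup_le ?_ (sSup_le ?_)
      · exact (h1 S hS).1.trans Subgroup.le_normalizer
      · intro S' hS'
        by_cases hSS : S = S'
        · rw [← hSS]; exact Subgroup.le_normalizer
        · intro y hy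
          rw [Subgroup.mem_normalizer_iff]
          intro s
          have h6 := h2 S hS S' hS' hSS
          constructor
          · intro hs
            rw [← h6 s hs y hy, mul_inv_cancel_right]
            exact hs
          · intro hs
            have h7 := h6 _ hs y hy
            have h8 : y * s * y⁻¹ = s := by
              calc y * s * y⁻¹ = y⁻¹ * (y * (y * s * y⁻¹)) := by group
                _ = y⁻¹ * (y * s * y⁻¹ * y) := by rw [h7]
                _ = s := by group
            rwa [h8] at hs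
    intro y hy s hs
    exact (Subgroup.mem_normalizer_iff.mp (h5 hy) s).mp hs
  -- the set `J`
  let J : Set (Subgroup G) := {S | S ∈ 𝒮 ∧ ∃ z ∈ SubAlg k S, z ∈ Fix (cj k G) W ∧
    tr (cj k G) W S z * e = e}
  have hconjW : ∀ g : G, conjS g W = W := by
    intro g
    ext y
    rw [mem_conjS]
    constructor
    · intro hy
      have := hWn.conj_mem _ hy g
      simpa [mul_assoc] using this
    · intro hy
      have := hWn.conj_mem _ hy g⁻¹
      simpa [mul_assoc] using this
  have hJ : ∀ S, S ∉ J := by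
    intro S0 hS0
    have hJconj : ∀ S ∈ J, ∀ g : G, S.map (MulAut.conj g).toMonoidHom ∈ J := by
      rintro S ⟨hS, z, hz, hzW, hze⟩ g
      refine ⟨h3 S hS g, cj k G g z, ?_, ?_, ?_⟩
      · exact SuppIn.conj hz g fun s hs => mem_conjS.mpr (by simpa [mul_assoc] using hs)
      · have := conj_mem_Fix hzW g (H' := W) fun h hh => by
          simpa using hWn.conj_mem h hh g⁻¹
        exact this
      · have h5 := cj_tr g (K := S) hzW
        rw [hconjW] at h5
        change tr (cj k G) W (conjS g S) (cj k G g z) * e = e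
        rw [← h5]
        conv_lhs => rhs; rw [← hest g]
        rw [← map_mul, hze, hest]
    have hJfin : J.Finite := Set.toFinite J
    let s : Finset (Subgroup G) := hJfin.toFinset
    have hmem : ∀ {S}, S ∈ s ↔ S ∈ J := hJfin.mem_toFinset
    have hsup : s.sup id = sSup J := by
      rw [Finset.sup_id_eq_sSup, hJfin.coe_toFinset]
    choose! z hz using fun (S : Subgroup G) (hS : S ∈ J) => hS.2
    obtain ⟨z', hz', hz'W, hz'e⟩ := exists_prod_tr (k := k) (id : Subgroup G → Subgroup G)
      (W := W) e z s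
      (fun S hS => (h1 S (hmem.mp hS).1).1)
      (fun S hS => (h1 S (hmem.mp hS).1).2.2.2)
      (fun S hS S' hS' hne => h2 S (hmem.mp hS).1 S' (hmem.mp hS').1 hne)
      (fun S hS => hWcentE S (hmem.mp hS).1)
      (fun S hS => (hz S (hmem.mp hS)).1)
      (fun S hS => (hz S (hmem.mp hS)).2.1)
      (fun S hS => (hz S (hmem.mp hS)).2.2)
    rw [hsup] at hz' hz'e
    set N := W ⊔ sSup J with hN
    have hNn : N.Normal := hsupn J hJconj
    have hWN : W ≤ N := le_sup_left
    obtain ⟨f, hf, hbf⟩ := exists_isPrimIn (ZAlg k N) ZAlg_comm hb.ne_zero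
    have hz'b : tr (cj k G) W N z' * b = b := by
      conv_lhs => rw [← hbee, ← hbc, ← mul_assoc, hz'e]
      rw [hbc, hbee]
    obtain ⟨z2, hz2, hz2W, hfz2⟩ := block_tr hWN hf (by rwa [hbc]) hz' hz'W hz'b
    have hnd : ¬ p ∣ Y0.relIndex W := by rw [hrelW]; exact hpZ
    have h5 := eq_tr_of_not_dvd p hnd hz2W
    have hcard := hNR N Y0 hNn hY0n ((le_sup_left (a := Z) (b := Y0)).trans hWN)
      ((sup_le hWC (sSup_le fun S hS => (h1 S hS.1).2.1)).trans hCB) (hY0W.trans hWN) hY0p
      (fun y hy x hx => by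
        have h6 : N ≤ C := sup_le hWC (sSup_le fun S hS => (h1 S hS.1).2.1)
        exact hcent y (hY0W hy) x (h6 hx)) f hf hbf
      ⟨_, Subalgebra.smul_mem _ hz2 _, Subalgebra.smul_mem _ (Fix_mono _ hY0W hz2W) _, by
        rw [hfz2]
        conv_lhs => rw [h5]
        rw [tr_tr (Subalgebra.smul_mem _ (Fix_mono _ hY0W hz2W) _) hY0W hWN]⟩
    rw [← hcardW] at hcard
    have hNW : W = N := Subgroup.eq_of_le_of_card_ge hWN hcard.le
    apply (h1 S0 hS0.1).2.2.1
    refine le_antisymm ?_ (h1 S0 hS0.1).1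
    rw [hNW]
    exact (le_sSup hS0).trans le_sup_right
  -- the elements `r_S`
  have hr : ∀ S ∈ 𝒮, ∃ r ∈ R, r ∈ S ∧ r ∉ W := by
    intro S hS
    obtain ⟨f, hf, hef⟩ := exists_isPrimIn (ZAlg k S) ZAlg_comm he.ne_zero
    have hfE := hfix S hS f hf
    have hfe : f * e = e := mul_block_eq (hSE S hS) hf hfE he hef
    obtain ⟨y, hy, z, hz, hzF, hfz⟩ := covering_rel (hSE S hS) inf_le_left (hSinv S hS) hf
      he.idem (by rw [hfe]; exact he.ne_zero) ha'E ha'F hea'
    by_contra hcon
    push Not at hcon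
    have hle : S ⊓ conjS y R ≤ W := by
      intro r hr
      obtain ⟨hr1, hr2⟩ := Subgroup.mem_inf.mp hr
      rw [mem_conjS] at hr2
      have h5 : y⁻¹ * r * y ∈ S := by
        have := hSinv S hS y⁻¹ (E.inv_mem hy) r hr1
        rwa [inv_inv] at this
      have h6 := hcon _ hr2 h5
      have := hWn.conj_mem _ h6 y
      simpa [mul_assoc] using this
    apply hJ S
    refine ⟨hS, tr (cj k G) (S ⊓ conjS y R) W z, tr_mem_SubAlg (h1 S hS).1 hz, tr_mem_Fix hzF, ?_⟩
    rw [tr_tr hzF hle (h1 S hS).1, ← hfz, hfe]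
  choose! r hr1 hr2 hr3 using hr
  have hcard𝒮 : Nat.card 𝒮 ≤ n := by
    refine le_trans (Nat.card_le_card_of_injective
      (fun S : 𝒮 => (⟨r S.1, hr1 S.1 S.2⟩ : R)) ?_) hRcard
    rintro ⟨S, hS⟩ ⟨S', hS'⟩ hSS
    have h5 : r S = r S' := congrArg Subtype.val hSS
    by_contra hne
    have hne' : S ≠ S' := fun h => hne (Subtype.ext h)
    apply hr3 S hS
    refine (h1 S hS).2.2.2 _ (hr2 S hS) fun y hy => ?_
    rw [h5]
    exact (h2 S hS S' hS' hne' y hy _ (hr2 S' hS')).symm
  -- the final bound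
  have hZW : Z ≤ W := le_sup_left
  have e1 : Z.relIndex B = Z.relIndex W * (W.relIndex C * C.relIndex B) := by
    rw [Subgroup.relIndex_mul_relIndex _ _ _ hWC hCB,
      Subgroup.relIndex_mul_relIndex _ _ _ hZW (hWC.trans hCB)]
  have e2 : Z.relIndex W ≤ n := by
    have h5 := Subgroup.card_mul_index (Z.subgroupOf W)
    rw [hcardW, Nat.card_congr (Subgroup.subgroupOfEquivOfLe hZW).toEquiv] at h5
    have h6 : Z.relIndex W = Nat.card Y0 := Nat.eq_of_mul_eq_mul_left Nat.card_pos h5
    rw [h6]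
    exact (Nat.card_le_card_of_injective _ (Subgroup.inclusion_injective inf_le_left)).trans
      hVcard
  have e3 : W.relIndex C ≤ (n * m)! :=
    h4.trans (Nat.factorial_le (Nat.mul_le_mul_right m hcard𝒮))
  have e4 : C.relIndex B ≤ n ! := by
    have h5 : C.relIndex B = C'.relIndex B := by rw [hCdef, Subgroup.inf_relIndex_right]
    rw [h5]
    refine (Nat.le_of_dvd (Nat.pos_of_ne_zero Subgroup.index_ne_zero_of_finite)
      (Subgroup.relIndex_dvd_index_of_normal C' B)).trans ?_
    exact (index_centralizer_le V).trans (Nat.factorial_le hVcard)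
  rw [e1]
  calc Z.relIndex W * (W.relIndex C * C.relIndex B) ≤ n * ((n * m)! * n !) :=
        Nat.mul_le_mul e2 (Nat.mul_le_mul e3 e4)
    _ = n ! * (n * m)! * n := by ring


end Vale.Agent.P180.H768
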