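import Vale.Agent.P180.H768.Defs
import Vale.Agent.P180.Bdl.B2

/-!
P180, normal series: relative version of the class of groups whose simple sections of order
divisible by `p` are bounded, and normal series with alternating layers.
-/

namespace Vale.Agent.P180.H768.Gd

open Vale.Agent.P180

theorem _root_.Vale.Agent.P180.IsGood.mono {p q m m' : ℕ} (h : m ≤ m') {S : Type} [Group S]
    (hS : IsGood p q m S) : IsGood p q m' S := by
  rcases hS with hS | hS
  · exact Or.inl (hS.trans h)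
  · exact Or.inr hS

variable {G : Type} [Group G]

/-- Every simple section of `B / A` (`A` normal) of order divisible by `p` is good. -/
def RC (p q m : ℕ) (A B : Subgroup G) : Prop :=
  ∀ (K : Subgroup G) (S : Type) [Group S] [IsSimpleGroup S] (f : K →* S), K ≤ B →
    Function.Surjective f → (∀ x : K, (x : G) ∈ A → f x = 1) → p ∣ Nat.card S → IsGood p q m S

theorem RC.mono {p q m m' : ℕ} (h : m ≤ m') {A B : Subgroup G} (hA : RC p q m A B) :
    RC p q m' A B := by
  intro K S _ _ f hK hf hx hp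
  exact (hA K S f hK hf hx hp).mono h

theorem RC.self (p q m : ℕ) (A : Subgroup G) : RC p q m A A := by
  intro K S _ _ f hK hf hx hp
  exfalso
  have h1 : ∀ s : S, s = 1 := by
    intro s
    obtain ⟨x, rfl⟩ := hf s
    exact hx x (hK x.2)
  obtain ⟨s, t, hst⟩ := exists_pair_ne S
  exact hst ((h1 s).trans (h1 t).symm)

theorem RC.trans {p q m : ℕ} {A B C : Subgroup G} [B.Normal] (h1 : RC p q m A B)
    (h2 : RC p q m B C) : RC p q m A C := by
  intro K S _ _ f hK hf hx hp
  let L : Subgroup K := B.subgroupOf K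
  have hLn : (L.map f).Normal := Subgroup.Normal.map inferInstance f hf
  rcases IsSimpleGroup.eq_bot_or_eq_top_of_normal _ hLn with h | h
  · refine h2 K S f hK hf ?_ hp
    intro x hxB
    have h3 : f x ∈ L.map f := Subgroup.mem_map_of_mem f hxB
    rw [h] at h3
    exact h3
  · let K' : Subgroup G := K ⊓ B
    let g : K' →* K := Subgroup.inclusion inf_le_left
    refine h1 K' S (f.comp g) inf_le_right ?_ ?_ hp
    · intro s
      have hs : s ∈ L.map f := by rw [h]; exact Subgroup.mem_top s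
      obtain ⟨x, hxL, rfl⟩ := hs
      exact ⟨⟨x, Subgroup.mem_inf.mpr ⟨x.2, hxL⟩⟩, rfl⟩
    · intro x hxA
      exact hx (g x) hxA

/-- factor a homomorphism through a surjection -/
theorem exists_factor {K L S : Type} [Group K] [Group L] [Group S] (g : K →* L)
    (hg : Function.Surjective g) (f : K →* S) (h : ∀ x, g x = 1 → f x = 1) :
    ∃ f' : L →* S, ∀ x, f' (g x) = f x := by
  have hker : g.ker ≤ f.ker := fun x hx => h x hx
  let f1 := QuotientGroup.lift g.ker f hker
  let e := QuotientGroup.quotientKerEquivOfSurjective g hg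
  refine ⟨f1.comp e.symm.toMonoidHom, fun x => ?_⟩
  have h1 : e.symm (g x) = (x : K ⧸ g.ker) := by
    rw [MulEquiv.symm_apply_eq]
    rfl
  change f1 (e.symm (g x)) = f x
  rw [h1]
  rfl

theorem RC.of_hom {p q m : ℕ} {A B : Subgroup G} [A.Normal]
    (h : ∀ (K : Subgroup (B.map (QuotientGroup.mk' A))) (S : Type) [Group S] [IsSimpleGroup S]
      (f : K →* S), Function.Surjective f → p ∣ Nat.card S → IsGood p q m S) :
    RC p q m A B := by
  intro K S _ _ f hK hf hx hp
  let g : K →* (B.map (QuotientGroup.mk' A)) :=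
    { toFun := fun x => ⟨QuotientGroup.mk' A x, Subgroup.mem_map_of_mem _ (hK x.2)⟩
      map_one' := Subtype.ext (map_one _)
      map_mul' := fun x y => Subtype.ext (map_mul _ _ _) }
  obtain ⟨f', hf'⟩ := exists_factor g.rangeRestrict g.rangeRestrict_surjective f (by
    intro x h1
    apply hx
    have h2 : QuotientGroup.mk' A (x : G) = 1 :=
      congrArg (fun y : g.range => ((y : B.map (QuotientGroup.mk' A)) : G ⧸ A)) h1
    exact (QuotientGroup.eq_one_iff _).mp h2)
  refine h g.range S f' ?_ hp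
  intro s
  obtain ⟨x, rfl⟩ := hf s
  exact ⟨_, hf' x⟩

theorem goodSections_of_cls {p q m : ℕ} {L : Type} [Group L] (h : Cls p m L) :
    GoodSections p q m L := fun K S _ _ f hf _ hp => Or.inl (h K S f hf hp)

theorem RC.subgroupOf {p q m : ℕ} {A B : Subgroup G} (h : RC p q m A B) (T : Subgroup G) :
    RC p q m (A.subgroupOf T) (B.subgroupOf T) := by
  intro K S _ _ f hK hf hx hp
  let e := K.equivMapOfInjective T.subtype T.subtype_injective
  refine h (K.map T.subtype) S (f.comp e.symm.toMonoidHom) ?_ (hf.comp e.symm.surjective) ?_ hp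
  · rintro _ ⟨x, hxK, rfl⟩
    exact hK hxK
  · intro x hxA
    apply hx
    have h1 : ((e (e.symm x) : K.map T.subtype) : G) = ((e.symm x : K) : T) := rfl
    rw [e.apply_symm_apply] at h1
    have h2 : (((e.symm x : K) : T) : G) ∈ A := by
      rw [← h1]
      exact hxA
    exact h2

/-- The preimage of the image of `B` in `G / N` under `π : H → G / N`. -/
abbrev pull (N : Subgroup G) [N.Normal] {H : Type} [Group H] (π : H →* G ⧸ N) (B : Subgroup G) :
    Subgroup H := (B.map (QuotientGroup.mk' N)).comap π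

theorem mem_pull {N : Subgroup G} [N.Normal] {H : Type} [Group H] {π : H →* G ⧸ N}
    {B : Subgroup G} {h : H} : h ∈ pull N π B ↔ ∃ x ∈ B, QuotientGroup.mk' N x = π h := Iff.rfl

theorem mk_mem {N : Subgroup G} [N.Normal] {B : Subgroup G} (hNB : N ≤ B) {x y : G}
    (hx : x ∈ B) (h : QuotientGroup.mk' N x = QuotientGroup.mk' N y) : y ∈ B := by
  have h2 : x⁻¹ * y ∈ N := by
    rw [← QuotientGroup.eq_one_iff]
    change QuotientGroup.mk' N (x⁻¹ * y) = 1
    rw [map_mul, map_inv, h, inv_mul_cancel]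
  have h3 := B.mul_mem hx (hNB h2)
  rwa [mul_inv_cancel_left] at h3

theorem RC.pull {p q m : ℕ} {N A B : Subgroup G} [N.Normal] (hNA : N ≤ A) (hAB : A ≤ B)
    {H : Type} [Group H] (π : H →* G ⧸ N) (h : RC p q m A B) :
    RC p q m (pull N π A) (pull N π B) := by
  intro K S _ _ f hK hf hx hp
  let g : K →* (K.map π) :=
    { toFun := fun x => ⟨π x, Subgroup.mem_map_of_mem _ x.2⟩
      map_one' := Subtype.ext (map_one _)
      map_mul' := fun x y => Subtype.ext (map_mul _ _ _) }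
  have hg : Function.Surjective g := by
    rintro ⟨_, x, hx, rfl⟩
    exact ⟨⟨x, hx⟩, rfl⟩
  obtain ⟨f', hf'⟩ := exists_factor g hg f (by
    intro x h1
    apply hx
    refine mem_pull.mpr ⟨1, A.one_mem, ?_⟩
    rw [map_one]
    exact (congrArg Subtype.val h1).symm)
  let L : Subgroup G := (K.map π).comap (QuotientGroup.mk' N)
  have hLB : L ≤ B := by
    intro y hy
    obtain ⟨x, hxK, hxy⟩ := Subgroup.mem_comap.mp hy
    obtain ⟨z, hz, hzx⟩ := mem_pull.mp (hK hxK)
    exact mk_mem (hNA.trans hAB) hz (hzx.trans hxy)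
  let q : L →* (K.map π) :=
    { toFun := fun x => ⟨QuotientGroup.mk' N x, x.2⟩
      map_one' := Subtype.ext (map_one _)
      map_mul' := fun x y => Subtype.ext (map_mul _ _ _) }
  refine h L S (f'.comp q) hLB ?_ ?_ hp
  · intro s
    obtain ⟨x, rfl⟩ := hf s
    obtain ⟨y, hy⟩ := QuotientGroup.mk'_surjective N (π x)
    refine ⟨⟨y, Subgroup.mem_comap.mpr ⟨x, x.2, hy.symm⟩⟩, ?_⟩
    have h1 : q ⟨y, Subgroup.mem_comap.mpr ⟨x, x.2, hy.symm⟩⟩ = g x := Subtype.ext hy
    change f' (q _) = f x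
    rw [h1, hf']
  · intro y hyA
    obtain ⟨x, hxK, hxy⟩ := Subgroup.mem_comap.mp y.2
    have h1 : q y = g ⟨x, hxK⟩ := Subtype.ext hxy.symm
    change f' (q y) = 1
    rw [h1, hf']
    apply hx
    exact mem_pull.mpr ⟨y, hyA, hxy.symm⟩

/-- An abelian quotient. -/
theorem RC.of_comm {p q m : ℕ} [Fact p.Prime] [Finite G] (hpm : p ≤ m) {A B : Subgroup G}
    (h : ∀ x ∈ B, ∀ y ∈ B, x * y * x⁻¹ * y⁻¹ ∈ A) : RC p q m A B := by
  intro K S _ _ f hK hf hx hp
  have h2 : Finite S := Finite.of_surjective f hf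
  have h3 : ∀ a b : S, a * b = b * a := by
    intro a b
    obtain ⟨x, rfl⟩ := hf a
    obtain ⟨y, rfl⟩ := hf b
    have h4 := hx (x * y * x⁻¹ * y⁻¹) (h x (hK x.2) y (hK y.2))
    rw [map_mul, map_mul, map_mul, map_inv, map_inv] at h4
    rwa [mul_inv_eq_one, mul_inv_eq_iff_eq_mul] at h4
  let _ : CommGroup S := { (inferInstance : Group S) with mul_comm := h3 }
  have h4 : (Nat.card S).Prime := IsSimpleGroup.prime_card
  exact Or.inl ((((Nat.prime_dvd_prime_iff_eq Fact.out h4).mp hp).symm.le).trans hpm)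

/-- Normal series above `A`: `j` times a layer `C / A` in which `D ∩ C` is central, followed by a
layer `B / C` of bounded type. -/
def Lay (p q m : ℕ) (D : Subgroup G) : ℕ → Subgroup G → Prop
  | 0, A => A = ⊤
  | j + 1, A => ∃ C B : Subgroup G, C.Normal ∧ B.Normal ∧ A ≤ C ∧ C ≤ B ∧
      (∀ x ∈ D, x ∈ C → ∀ y ∈ C, x * y * x⁻¹ * y⁻¹ ∈ A) ∧ RC p q m C B ∧ Lay p q m D j B

theorem Lay.mono {p q m m' : ℕ} (h : m ≤ m') {D : Subgroup G} :
    ∀ {j : ℕ} {A : Subgroup G}, Lay p q m D j A → Lay p q m' D j A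
  | 0, _, hA => hA
  | _ + 1, _, ⟨C, B, h1, h2, h3, h4, h5, h6, h7⟩ =>
    ⟨C, B, h1, h2, h3, h4, h5, h6.mono h, h7.mono h⟩

theorem Lay.mono_D {p q m : ℕ} {D P : Subgroup G} (h : P ≤ D) :
    ∀ {j : ℕ} {A : Subgroup G}, Lay p q m D j A → Lay p q m P j A
  | 0, _, hA => hA
  | _ + 1, _, ⟨C, B, h1, h2, h3, h4, h5, h6, h7⟩ =>
    ⟨C, B, h1, h2, h3, h4, fun x hx => h5 x (h hx), h6, h7.mono_D h⟩

theorem comm_mem {A : Subgroup G} [A.Normal] {x y : G} (hx : x ∈ A) : x * y * x⁻¹ * y⁻¹ ∈ A := by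
  have h1 := A.mul_mem hx (‹A.Normal›.conj_mem _ (A.inv_mem hx) y)
  simpa [mul_assoc] using h1

theorem Lay.succ {p q m : ℕ} {D : Subgroup G} {j : ℕ} {A : Subgroup G} [A.Normal]
    (h : Lay p q m D j A) : Lay p q m D (j + 1) A :=
  ⟨A, A, ‹_›, ‹_›, le_rfl, le_rfl, fun _ _ hx _ _ => comm_mem hx, RC.self p q m A, h⟩

theorem Lay.add {p q m : ℕ} {D : Subgroup G} {j : ℕ} {A : Subgroup G} [A.Normal]
    (h : Lay p q m D j A) (i : ℕ) : Lay p q m D (j + i) A := by
  induction i with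
  | zero => exact h
  | succ i ih => exact ih.succ

theorem Lay.subgroupOf [Finite G] {p q m : ℕ} {D : Subgroup G} (T : Subgroup G) (g : G) :
    ∀ {j : ℕ} {A : Subgroup G}, A.Normal → Lay p q m D j A →
      Lay p q m ((conjS g D).subgroupOf T) j (A.subgroupOf T)
  | 0, A, _, hA => by
    have h1 : A = ⊤ := hA
    subst h1
    exact (Subgroup.subgroupOf_eq_top.mpr le_top : (⊤ : Subgroup G).subgroupOf T = ⊤)
  | j + 1, A, hAn, ⟨C, B, h1, h2, h3, h4, h5, h6, h7⟩ => by
    refine ⟨C.subgroupOf T, B.subgroupOf T, inferInstance, inferInstance,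
      Subgroup.comap_mono h3, Subgroup.comap_mono h4, ?_, h6.subgroupOf T,
      h7.subgroupOf T g h2⟩
    intro x hx hxC y hyC
    rw [Subgroup.mem_subgroupOf, mem_conjS] at hx
    rw [Subgroup.mem_subgroupOf] at hxC hyC ⊢
    have e1 : g⁻¹ * (x : G) * g ∈ C := by
      have := h1.conj_mem _ hxC g⁻¹
      simpa using this
    have e2 : g⁻¹ * (y : G) * g ∈ C := by
      have := h1.conj_mem _ hyC g⁻¹
      simpa using this
    have e3 := h5 _ hx e1 _ e2
    have e4 := hAn.conj_mem _ e3 g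
    have e5 : g * (g⁻¹ * (x : G) * g * (g⁻¹ * (y : G) * g) * (g⁻¹ * (x : G) * g)⁻¹ *
        (g⁻¹ * (y : G) * g)⁻¹) * g⁻¹ = (x : G) * y * (x : G)⁻¹ * (y : G)⁻¹ := by group
    rw [e5] at e4
    exact e4

theorem Lay.pull {p q m : ℕ} {D N : Subgroup G} [N.Normal] {H : Type} [Group H] (π : H →* G ⧸ N)
    {D' : Subgroup H} (hD' : D' ≤ Gd.pull N π D) :
    ∀ {j : ℕ} {A : Subgroup G}, N ≤ A → Lay p q m D j A → Lay p q m D' j (Gd.pull N π A)
  | 0, A, _, hA => by
    have h1 : A = ⊤ := hA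
    subst h1
    change ((⊤ : Subgroup G).map (QuotientGroup.mk' N)).comap π = ⊤
    rw [Subgroup.map_top_of_surjective _ (QuotientGroup.mk'_surjective N), Subgroup.comap_top]
  | j + 1, A, hNA, ⟨C, B, h1, h2, h3, h4, h5, h6, h7⟩ => by
    have h1' : (C.map (QuotientGroup.mk' N)).Normal :=
      Subgroup.Normal.map h1 _ (QuotientGroup.mk'_surjective N)
    have h2' : (B.map (QuotientGroup.mk' N)).Normal :=
      Subgroup.Normal.map h2 _ (QuotientGroup.mk'_surjective N)
    refine ⟨Gd.pull N π C, Gd.pull N π B, inferInstance, inferInstance,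
      Subgroup.comap_mono (Subgroup.map_mono h3), Subgroup.comap_mono (Subgroup.map_mono h4), ?_,
      h6.pull (hNA.trans h3) h4 π, h7.pull π hD' ((hNA.trans h3).trans h4)⟩
    intro x hx hxC y hyC
    obtain ⟨d, hd, hdx⟩ := mem_pull.mp (hD' hx)
    obtain ⟨c, hc, hcx⟩ := mem_pull.mp hxC
    obtain ⟨c', hc', hcy⟩ := mem_pull.mp hyC
    have hdC : d ∈ C := mk_mem (hNA.trans h3) hc (hcx.trans hdx.symm)
    refine mem_pull.mpr ⟨d * c' * d⁻¹ * c'⁻¹, h5 d hd hdC c' hc', ?_⟩
    rw [map_mul, map_mul, map_mul, map_inv, map_inv, map_mul, map_mul, map_mul, map_inv, map_inv,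
      hdx, hcy]

end Vale.Agent.P180.H768.Gd
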