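import Vale.Agent.P180.H768.Defs
import Vale.Agent.P180.Bdl.B2

/-!
P180: the Brauer homomorphism, and blocks of central extensions of groups of characteristic `p`
type.
-/

namespace Vale.Agent.P180.H768.Gd

open Vale.Agent.P180

variable {k : Type*} [Field k] {p : ℕ} [Fact p.Prime] [CharP k p]

section Sum

theorem sum_fixed {V Ω : Type*} [Group V] [Finite V] [Fintype Ω] (hV : IsPGroup p V)
    (α : V →* Equiv.Perm Ω) (φ : Ω → k) (hφ : ∀ v x, φ (α v x) = φ x) (P : Ω → Prop)
    [DecidablePred P] (hP : ∀ x, P x ↔ ∀ v, α v x = x) :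
    ∑ x, φ x = ∑ x, if P x then φ x else 0 := by
  classical
  have key : ∀ b : k, (((Finset.univ.filter fun x => φ x = b).card : ℕ) : k) =
      (((Finset.univ.filter fun x => φ x = b ∧ P x).card : ℕ) : k) := by
    intro b
    let _ : MulAction V {x // φ x = b} :=
      { smul := fun v x => ⟨α v x.1, (hφ v x.1).trans x.2⟩
        one_smul := fun x => Subtype.ext (by
          change α 1 x.1 = x.1
          rw [map_one]; rfl)
        mul_smul := fun v w x => Subtype.ext (by
          change α (v * w) x.1 = α v (α w x.1)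
          rw [map_mul]; rfl) }
    have h := hV.card_modEq_card_fixedPoints {x // φ x = b}
    have e1 : Nat.card {x // φ x = b} = (Finset.univ.filter fun x => φ x = b).card := by
      rw [Nat.card_eq_fintype_card, Fintype.card_subtype]
    have e2 : Nat.card (MulAction.fixedPoints V {x // φ x = b}) =
        (Finset.univ.filter fun x => φ x = b ∧ P x).card := by
      rw [← Fintype.card_subtype, ← Nat.card_eq_fintype_card]
      refine Nat.card_congr
        { toFun := fun x => ⟨x.1.1, x.1.2, (hP _).mpr fun v => congrArg Subtype.val (x.2 v)⟩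
          invFun := fun x => ⟨⟨x.1, x.2.1⟩, fun v => Subtype.ext ((hP _).mp x.2.2 v)⟩
          left_inv := fun x => rfl
          right_inv := fun x => rfl }
    rw [e1, e2] at h
    exact (CharP.natCast_eq_natCast k p).mpr h
  rw [← Finset.sum_fiberwise_of_maps_to (s := Finset.univ) (t := Finset.univ.image φ) (g := φ)
    (fun x _ => Finset.mem_image_of_mem φ (Finset.mem_univ x)) φ,
    ← Finset.sum_fiberwise_of_maps_to (s := Finset.univ) (t := Finset.univ.image φ) (g := φ)
    (fun x _ => Finset.mem_image_of_mem φ (Finset.mem_univ x)) (fun x => if P x then φ x else 0)]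
  refine Finset.sum_congr rfl fun b _ => ?_
  have h1 : ∑ x ∈ Finset.univ.filter (fun x => φ x = b), φ x =
      (((Finset.univ.filter fun x => φ x = b).card : ℕ) : k) * b := by
    rw [Finset.sum_congr rfl (g := fun _ => b) fun x hx => (Finset.mem_filter.mp hx).2,
      Finset.sum_const, nsmul_eq_mul]
  have h2 : ∑ x ∈ Finset.univ.filter (fun x => φ x = b), (if P x then φ x else 0) =
      (((Finset.univ.filter fun x => φ x = b ∧ P x).card : ℕ) : k) * b := by
    rw [← Finset.sum_filter, Finset.filter_filter,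
      Finset.sum_congr rfl (g := fun _ => b) fun x hx => (Finset.mem_filter.mp hx).2.1,
      Finset.sum_const, nsmul_eq_mul]
  rw [h1, h2, key b]

end Sum

section Br

variable {G : Type*} [Group G] [Finite G]

open scoped Classical in
/-- The Brauer map: restriction of the support to `C_G(D)`. -/
noncomputable def br (D : Subgroup G) (a : MonoidAlgebra k G) : MonoidAlgebra k G :=
  MonoidAlgebra.ofCoeff (a.coeff.filter fun x : G => x ∈ Subgroup.centralizer (D : Set G))

omit [Finite G] in
open scoped Classical in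
theorem br_coeff (D : Subgroup G) (a : MonoidAlgebra k G) (x : G) :
    (br D a).coeff x = if x ∈ Subgroup.centralizer (D : Set G) then a.coeff x else 0 := by
  change (a.coeff.filter fun x : G => x ∈ Subgroup.centralizer (D : Set G)) x = _
  rw [Finsupp.filter_apply]

omit [Finite G] in
theorem br_mem (D : Subgroup G) (a : MonoidAlgebra k G) :
    br D a ∈ SubAlg k (Subgroup.centralizer (D : Set G)) := by
  classical
  intro x hx
  rw [br_coeff] at hx
  by_contra h
  exact hx (if_neg h)

omit [Finite G] in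
theorem mem_cent {D : Subgroup G} {x : G} :
    x ∈ Subgroup.centralizer (D : Set G) ↔ ∀ d ∈ D, d * x * d⁻¹ = x := by
  rw [Subgroup.mem_centralizer_iff]
  constructor
  · intro h d hd
    rw [h d hd, mul_inv_cancel_right]
  · intro h d hd
    have := h d hd
    rwa [mul_inv_eq_iff_eq_mul] at this

omit [Finite G] in
theorem coeff_mul_sum [Fintype G] (a b : MonoidAlgebra k G) (c : G) :
    (a * b).coeff c = ∑ x : G, a.coeff x * b.coeff (x⁻¹ * c) := by
  rw [MonoidAlgebra.coeff_mul_apply_left, Finsupp.sum_fintype]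
  intro i
  rw [zero_mul]

omit [Finite G] [Fact p.Prime] [CharP k p] in
theorem coeff_conj {D : Subgroup G} {a : MonoidAlgebra k G} (ha : a ∈ Fix (cj k G) D) {d : G}
    (hd : d ∈ D) (x : G) : a.coeff (d * x * d⁻¹) = a.coeff x := by
  have h := ha d⁻¹ (D.inv_mem hd)
  conv_rhs => rw [← h]
  rw [cj_coeff, inv_inv]

theorem br_mul {D : Subgroup G} (hD : IsPGroup p D) {a b : MonoidAlgebra k G}
    (ha : a ∈ Fix (cj k G) D) (hb : b ∈ Fix (cj k G) D) : br D (a * b) = br D a * br D b := by
  classical
  have _ := Fintype.ofFinite G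
  apply MonoidAlgebra.coeff_injective
  ext c
  rw [br_coeff, coeff_mul_sum, coeff_mul_sum]
  by_cases hc : c ∈ Subgroup.centralizer (D : Set G)
  · rw [if_pos hc]
    let α : D →* Equiv.Perm G :=
      { toFun := fun d => (MulAut.conj (d : G)).toEquiv
        map_one' := by ext x; simp
        map_mul' := fun d d' => by ext x; simp [mul_assoc] }
    rw [sum_fixed hD α (fun x => a.coeff x * b.coeff (x⁻¹ * c)) ?_
      (fun x => x ∈ Subgroup.centralizer (D : Set G)) ?_]
    · refine Finset.sum_congr rfl fun x _ => ?_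
      rw [br_coeff, br_coeff]
      by_cases hx : x ∈ Subgroup.centralizer (D : Set G)
      · rw [if_pos hx, if_pos hx, if_pos (Subgroup.mul_mem _ (Subgroup.inv_mem _ hx) hc)]
      · rw [if_neg hx, if_neg hx, zero_mul]
    · intro d x
      have e1 : α d x = (d : G) * x * (d : G)⁻¹ := rfl
      have e2 : ((d : G) * x * (d : G)⁻¹)⁻¹ * c = (d : G) * (x⁻¹ * c) * (d : G)⁻¹ := by
        have h1 := mem_cent.mp hc d d.2
        calc ((d : G) * x * (d : G)⁻¹)⁻¹ * c
            = (d : G) * x⁻¹ * (d : G)⁻¹ * ((d : G) * c * (d : G)⁻¹) := by rw [h1]; group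
          _ = (d : G) * (x⁻¹ * c) * (d : G)⁻¹ := by group
      change a.coeff (α d x) * b.coeff ((α d x)⁻¹ * c) = _
      rw [e1, e2, coeff_conj ha d.2, coeff_conj hb d.2]
    · intro x
      rw [mem_cent]
      exact ⟨fun h v => h v v.2, fun h d hd => h ⟨d, hd⟩⟩
  · rw [if_neg hc]
    symm
    apply Finset.sum_eq_zero
    intro x _
    rw [br_coeff, br_coeff]
    by_cases hx : x ∈ Subgroup.centralizer (D : Set G)
    · rw [if_pos hx, if_neg, mul_zero]
      intro hxc
      apply hc
      have := Subgroup.mul_mem _ hx hxc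
      rwa [mul_inv_cancel_left] at this
    · rw [if_neg hx, zero_mul]

theorem br_tr {D : Subgroup G} (hD : IsPGroup p D) {a : MonoidAlgebra k G}
    (ha : a ∈ Fix (cj k G) D) :
    br D (tr (cj k G) D ⊤ a) = tr (cj k G) D (Subgroup.normalizer (D : Set G)) (br D a) := by
  classical
  have _ := Fintype.ofFinite (G ⧸ D)
  set N := Subgroup.normalizer (D : Set G) with hN
  have _ := Fintype.ofFinite (N ⧸ D.subgroupOf N)
  have hDN : D ≤ N := Subgroup.le_normalizer
  have hcN : ∀ n ∈ N, ∀ c ∈ Subgroup.centralizer (D : Set G),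
      n⁻¹ * c * n ∈ Subgroup.centralizer (D : Set G) := by
    intro n hn c hc
    rw [mem_cent] at hc ⊢
    intro d hd
    have h1 : n * d * n⁻¹ ∈ D := (Subgroup.mem_normalizer_iff.mp hn d).mp hd
    have h2 := hc _ h1
    calc d * (n⁻¹ * c * n) * d⁻¹
        = n⁻¹ * ((n * d * n⁻¹) * c * (n * d * n⁻¹)⁻¹) * n := by group
      _ = n⁻¹ * c * n := by rw [h2]
  have hbrfix : br D a ∈ Fix (cj k G) D := by
    intro d hd
    apply MonoidAlgebra.coeff_injective
    ext x
    rw [cj_coeff, br_coeff, br_coeff]
    have h1 : d⁻¹ * x * d ∈ Subgroup.centralizer (D : Set G) ↔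
        x ∈ Subgroup.centralizer (D : Set G) := by
      constructor
      · intro h
        have := hcN d⁻¹ (N.inv_mem (hDN hd)) _ h
        have e : (d⁻¹)⁻¹ * (d⁻¹ * x * d) * d⁻¹ = x := by group
        rwa [e] at this
      · intro h
        exact hcN d (hDN hd) _ h
    have h2 := coeff_conj ha (D.inv_mem hd) x
    rw [inv_inv] at h2
    rw [h2]
    simp only [h1]
  have e1 : tr (cj k G) D ⊤ a = ∑ q : G ⧸ D, cj k G q.out a := by
    refine tr_eq_sum' (ι := G ⧸ D) ha (fun q => q.out) ?_ ?_ ?_
    · intro q; exact Subgroup.mem_top _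
    · intro q r h
      rw [← QuotientGroup.out_eq' q, ← QuotientGroup.out_eq' r, QuotientGroup.eq]
      exact h
    · intro x _
      refine ⟨(x : G ⧸ D), ?_⟩
      rw [← QuotientGroup.eq, QuotientGroup.out_eq']
  have e2 : tr (cj k G) D N (br D a) =
      ∑ q : N ⧸ D.subgroupOf N, cj k G ((q.out : N) : G) (br D a) := by
    rw [tr_def]
  apply MonoidAlgebra.coeff_injective
  ext c
  rw [br_coeff]
  by_cases hc : c ∈ Subgroup.centralizer (D : Set G)
  · rw [if_pos hc, e1, e2, MonoidAlgebra.coeff_sum, Finsupp.finsetSum_apply,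
      MonoidAlgebra.coeff_sum, Finsupp.finsetSum_apply]
    have hout : ∀ g : G, cj k G ((g : G ⧸ D).out) a = cj k G g a := by
      intro g
      have h1 : g⁻¹ * (g : G ⧸ D).out ∈ D := by
        rw [← QuotientGroup.eq, QuotientGroup.out_eq']
      have h2 := ha _ h1
      rw [map_mul_act] at h2
      calc cj k G ((g : G ⧸ D).out) a
          = cj k G g (cj k G g⁻¹ (cj k G ((g : G ⧸ D).out) a)) := by rw [map_act_inv]
        _ = cj k G g a := by rw [h2]
    let α : D →* Equiv.Perm (G ⧸ D) := (MulAction.toPermHom G (G ⧸ D)).comp D.subtype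
    have hα : ∀ (d : D) (g : G), α d (g : G ⧸ D) = (((d : G) * g : G) : G ⧸ D) := fun _ _ => rfl
    have hfix : ∀ g : G, (∀ v : D, α v (g : G ⧸ D) = (g : G ⧸ D)) ↔ g ∈ N := by
      intro g
      rw [hN, ← Subgroup.inv_mem_iff]
      constructor
      · intro h
        refine Subgroup.mem_normalizer_fintype fun d hd => ?_
        have h1 := h ⟨d, hd⟩
        rw [hα, eq_comm, QuotientGroup.eq] at h1
        have e : g⁻¹ * d * (g⁻¹)⁻¹ = g⁻¹ * ((⟨d, hd⟩ : D) * g) := by
          rw [inv_inv, mul_assoc]
        rw [e]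
        exact h1
      · intro h v
        rw [hα, eq_comm, QuotientGroup.eq]
        have h1 := (Subgroup.mem_normalizer_iff.mp h v).mp v.2
        rw [inv_inv] at h1
        rwa [← mul_assoc]
    rw [sum_fixed hD α (fun q : G ⧸ D => (cj k G q.out a).coeff c) ?_
      (fun q => ∀ v : D, α v q = q) (fun _ => Iff.rfl)]
    · rw [← Finset.sum_filter]
      symm
      refine Finset.sum_bij (fun q _ => (((q.out : N) : G) : G ⧸ D)) ?_ ?_ ?_ ?_
      · intro q _
        rw [Finset.mem_filter]
        exact ⟨Finset.mem_univ _, (hfix _).mpr q.out.2⟩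
      · intro q _ r _ h
        rw [QuotientGroup.eq] at h
        rw [← QuotientGroup.out_eq' q, ← QuotientGroup.out_eq' r, QuotientGroup.eq,
          Subgroup.mem_subgroupOf]
        exact h
      · intro q hq
        obtain ⟨g, rfl⟩ := QuotientGroup.mk_surjective q
        have hg : g ∈ N := (hfix g).mp (Finset.mem_filter.mp hq).2
        refine ⟨((⟨g, hg⟩ : N) : N ⧸ D.subgroupOf N), Finset.mem_univ _, ?_⟩
        rw [QuotientGroup.eq]
        have h1 : (((⟨g, hg⟩ : N) : N ⧸ D.subgroupOf N).out)⁻¹ * (⟨g, hg⟩ : N) ∈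
            D.subgroupOf N := by
          rw [← QuotientGroup.eq, QuotientGroup.out_eq']
        exact h1
      · intro q _
        rw [cj_coeff, br_coeff, if_pos (hcN _ q.out.2 c hc), hout, cj_coeff]
    · intro d q
      obtain ⟨g, rfl⟩ := QuotientGroup.mk_surjective q
      rw [hα]
      rw [hout, hout, cj_coeff, cj_coeff]
      have h1 := mem_cent.mp hc (d : G)⁻¹ (D.inv_mem d.2)
      rw [inv_inv] at h1
      have e : ((d : G) * g)⁻¹ * c * ((d : G) * g) = g⁻¹ * ((d : G)⁻¹ * c * d) * g := by group
      rw [e, h1]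
  · rw [if_neg hc, e2, MonoidAlgebra.coeff_sum, Finsupp.finsetSum_apply]
    symm
    apply Finset.sum_eq_zero
    intro q _
    rw [cj_coeff, br_coeff, if_neg]
    intro h
    apply hc
    have := hcN _ (N.inv_mem q.out.2) _ h
    have e : (((q.out : N) : G)⁻¹)⁻¹ * (((q.out : N) : G)⁻¹ * c * ((q.out : N) : G)) *
        ((q.out : N) : G)⁻¹ = c := by group
    rwa [e] at this

end Br

end Vale.Agent.P180.H768.Gd
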