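import Vale.Agent.P180.Defs

namespace Vale.Agent.P180

/-- `S` is of local characteristic `p` up to order `n`: every nontrivial `p`-subgroup `Q` of `S`
of order at most `n` with `Q = O_p(N_S(Q))` (that is, `Q` contains every `p`-subgroup
`P ≤ N_S(Q)` normalised by `N_S(Q)`) satisfies `C_S(Q) ≤ Q`. By the Borel-Tits theorem, the finite
simple groups of Lie type in characteristic `p` have this property for all `n`. -/
def IsLocalChar (p n : ℕ) (S : Type) [Group S] : Prop :=
  ∀ Q : Subgroup S, Q ≠ ⊥ → IsPGroup p Q → Nat.card Q ≤ n →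
    (∀ P : Subgroup S, IsPGroup p P → P ≤ Subgroup.normalizer (Q : Set S) →
      (∀ g ∈ Subgroup.normalizer (Q : Set S), ∀ x ∈ P, g * x * g⁻¹ ∈ P) → P ≤ Q) →
    Subgroup.centralizer (Q : Set S) ≤ Q

/-- Every nonabelian simple section `S` of `L` (a simple quotient of a subgroup of `L`) whose order
is divisible by `p` has order at most `m`, or is of local characteristic `p` up to order `n` and,
unless `p = 2`, has Sylow `p`-subgroups of order greater than `n`. -/
def GoodSections (p n m : ℕ) (L : Type) [Group L] : Prop :=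
  ∀ (K : Subgroup L) (S : Type) [Group S] [IsSimpleGroup S] (f : K →* S),
    Function.Surjective f → (¬ ∀ x y : S, x * y = y * x) → p ∣ Nat.card S →
      Nat.card S ≤ m ∨ (IsLocalChar p n S ∧ (p = 2 ∨ ∀ P : Sylow p S, n < Nat.card P))

/-- `|S| ≤ m`, or `S` is of local characteristic `p` up to order `n` and its Sylow `p`-subgroups
have order greater than `n`. -/
def IsGood (p n m : ℕ) (S : Type) [Group S] : Prop :=
  Nat.card S ≤ m ∨ (IsLocalChar p n S ∧ ∀ P : Sylow p S, n < Nat.card P)

end Vale.Agent.P180
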