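import Vale.Agent.P180.MathlibUsed
import Vale.Agent.P180.H768.Defs

/-!
The Brauer-Fowler theorem: a finite simple group with an involution `t` has order at most
`(2 |C(t)| ^ 2)!`; and a simple group of local characteristic `2` is bounded in terms of the order
of its Sylow `2`-subgroups.
-/

namespace Vale.Agent.P180.H768.BF

open scoped Nat

section Count

variable {G : Type} [Group G] [Finite G]

theorem fiber_one {t : G} (ht : t * t = 1) :
    Nat.card {q : G × G // (q.1 * t * q.1⁻¹) * (q.2 * t * q.2⁻¹) = 1} ≤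
      Nat.card G * Nat.card (Subgroup.centralizer {t}) := by
  rw [← Nat.card_prod]
  refine Nat.card_le_card_of_injective (fun q => (q.1.1, ⟨q.1.1⁻¹ * q.1.2, ?_⟩)) ?_
  · obtain ⟨⟨g, h⟩, hq⟩ := q
    change g⁻¹ * h ∈ _
    rw [Subgroup.mem_centralizer_singleton_iff]
    have h1 : g * t * g⁻¹ * (h * t * h⁻¹) = 1 := hq
    have h2 : h * t * h⁻¹ = (g * t * g⁻¹)⁻¹ := (inv_eq_of_mul_eq_one_right h1).symm
    have h3 : t⁻¹ = t := inv_eq_of_mul_eq_one_right ht
    have h4 : h * t * h⁻¹ = g * t * g⁻¹ := by rw [h2, mul_inv_rev, mul_inv_rev, h3]; group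
    calc g⁻¹ * h * t = g⁻¹ * (h * t * h⁻¹) * h := by group
      _ = g⁻¹ * (g * t * g⁻¹) * h := by rw [h4]
      _ = t * (g⁻¹ * h) := by group
  · rintro ⟨⟨g, h⟩, hq⟩ ⟨⟨g', h'⟩, hq'⟩ heq
    have h1 : g = g' := congrArg Prod.fst heq
    subst h1
    have h2 := congrArg (fun z => ((Prod.snd z : Subgroup.centralizer {t}) : G)) heq
    have h3 : g⁻¹ * h = g⁻¹ * h' := h2
    have h4 : h = h' := mul_left_cancel h3
    subst h4
    rfl

omit [Finite G] in
theorem exists_rep (t : G) : ∃ r : G → G, ∀ g, r (g * t * g⁻¹) * t * (r (g * t * g⁻¹))⁻¹ =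
    g * t * g⁻¹ := by
  classical
  refine ⟨fun u => if h : ∃ g, g * t * g⁻¹ = u then h.choose else 1, fun g => ?_⟩
  have h : ∃ g', g' * t * g'⁻¹ = g * t * g⁻¹ := ⟨g, rfl⟩
  have h1 := h.choose_spec
  simp only [dif_pos h]
  exact h1

theorem fiber_le {t : G} (ht : t * t = 1) (x : G) :
    Nat.card {q : G × G // (q.1 * t * q.1⁻¹) * (q.2 * t * q.2⁻¹) = x} ≤
      Nat.card (Subgroup.centralizer {x}) * (Nat.card (Subgroup.centralizer {t}) *
        Nat.card (Subgroup.centralizer {t})) := by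
  classical
  obtain ⟨r, hr⟩ := exists_rep t
  have h3 : t⁻¹ = t := inv_eq_of_mul_eq_one_right ht
  have hinv : ∀ g : G, (g * t * g⁻¹)⁻¹ = g * t * g⁻¹ := by
    intro g
    rw [mul_inv_rev, mul_inv_rev, h3]
    group
  have hc : ∀ g : G, (r (g * t * g⁻¹))⁻¹ * g ∈ Subgroup.centralizer {t} := by
    intro g
    rw [Subgroup.mem_centralizer_singleton_iff]
    have h4 := hr g
    set s := r (g * t * g⁻¹)
    calc s⁻¹ * g * t = s⁻¹ * (g * t * g⁻¹) * g := by group
      _ = s⁻¹ * (s * t * s⁻¹) * g := by rw [h4]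
      _ = t * (s⁻¹ * g) := by group
  -- the inverting elements
  have hux : ∀ q : G × G, (q.1 * t * q.1⁻¹) * (q.2 * t * q.2⁻¹) = x →
      (q.1 * t * q.1⁻¹) * x * (q.1 * t * q.1⁻¹)⁻¹ = x⁻¹ := by
    rintro ⟨g, h⟩ hq
    have hq' : (g * t * g⁻¹) * (h * t * h⁻¹) = x := hq
    change (g * t * g⁻¹) * x * (g * t * g⁻¹)⁻¹ = x⁻¹
    rw [← hq', hinv g, mul_inv_rev, hinv g, hinv h]
    calc g * t * g⁻¹ * (g * t * g⁻¹ * (h * t * h⁻¹)) * (g * t * g⁻¹)
        = g * (t * t) * g⁻¹ * (h * t * h⁻¹) * (g * t * g⁻¹) := by group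
      _ = h * t * h⁻¹ * (g * t * g⁻¹) := by rw [ht]; group
  by_cases hne : ∃ u : G, u * x * u⁻¹ = x⁻¹
  swap
  · have hempty : IsEmpty {q : G × G // (q.1 * t * q.1⁻¹) * (q.2 * t * q.2⁻¹) = x} := by
      constructor
      rintro ⟨q, hq⟩
      exact hne ⟨_, hux q hq⟩
    rw [Nat.card_of_isEmpty]
    exact Nat.zero_le _
  obtain ⟨u₀, hu₀⟩ := hne
  rw [← Nat.card_prod, ← Nat.card_prod]
  refine Nat.card_le_card_of_injective (fun q => (⟨u₀⁻¹ * (q.1.1 * t * q.1.1⁻¹), ?_⟩,
    ⟨(r (q.1.1 * t * q.1.1⁻¹))⁻¹ * q.1.1, hc _⟩,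
    ⟨(r (q.1.2 * t * q.1.2⁻¹))⁻¹ * q.1.2, hc _⟩)) ?_
  · rw [Subgroup.mem_centralizer_singleton_iff]
    have h4 := hux q.1 q.2
    set u := q.1.1 * t * q.1.1⁻¹
    have h5 : u * x = x⁻¹ * u := by rw [← h4]; group
    have h6 : x * u₀⁻¹ = u₀⁻¹ * x⁻¹ := by rw [← hu₀]; group
    calc u₀⁻¹ * u * x = u₀⁻¹ * (u * x) := by group
      _ = (u₀⁻¹ * x⁻¹) * u := by rw [h5]; group
      _ = x * (u₀⁻¹ * u) := by rw [← h6]; group
  · rintro ⟨⟨g, h⟩, hq⟩ ⟨⟨g', h'⟩, hq'⟩ heq
    have h1 : u₀⁻¹ * (g * t * g⁻¹) = u₀⁻¹ * (g' * t * g'⁻¹) :=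
      congrArg (fun z => ((Prod.fst z : Subgroup.centralizer {x}) : G)) heq
    have h1' : g * t * g⁻¹ = g' * t * g'⁻¹ := mul_left_cancel h1
    have h2 : (r (g * t * g⁻¹))⁻¹ * g = (r (g' * t * g'⁻¹))⁻¹ * g' :=
      congrArg (fun z => ((Prod.fst (Prod.snd z) : Subgroup.centralizer {t}) : G)) heq
    have h2' : (r (h * t * h⁻¹))⁻¹ * h = (r (h' * t * h'⁻¹))⁻¹ * h' :=
      congrArg (fun z => ((Prod.snd (Prod.snd z) : Subgroup.centralizer {t}) : G)) heq
    have hgg : g = g' := by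
      rw [h1'] at h2
      exact mul_left_cancel h2
    subst hgg
    have hqq : g * t * g⁻¹ * (h * t * h⁻¹) = x := hq
    have hqq' : g * t * g⁻¹ * (h' * t * h'⁻¹) = x := hq'
    have h4 : h * t * h⁻¹ = h' * t * h'⁻¹ := mul_left_cancel (hqq.trans hqq'.symm)
    have hhh : h = h' := by
      rw [h4] at h2'
      exact mul_left_cancel h2'
    subst hhh
    rfl

/-- The Brauer-Fowler theorem, first form. -/
theorem exists_index_le {t : G} (ht : t * t = 1)
    (hG : 2 * Nat.card (Subgroup.centralizer {t}) < Nat.card G) :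
    ∃ x : G, x ≠ 1 ∧
      (Subgroup.centralizer {x}).index ≤ 2 * Nat.card (Subgroup.centralizer {t}) ^ 2 := by
  classical
  by_contra hcon
  push Not at hcon
  set c := Nat.card (Subgroup.centralizer {t}) with hcdef
  have _ := Fintype.ofFinite G
  let f : G × G → G := fun q => (q.1 * t * q.1⁻¹) * (q.2 * t * q.2⁻¹)
  have h1 : Nat.card G * Nat.card G = ∑ x : G, Nat.card {q : G × G // f q = x} := by
    rw [← Nat.card_prod, ← Nat.card_sigma]
    exact Nat.card_congr (Equiv.sigmaFiberEquiv f).symm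
  have h2 : 2 * ∑ x : G, Nat.card {q : G × G // f q = x} ≤
      2 * (Nat.card G * c) + Nat.card G * Nat.card G := by
    rw [← Finset.add_sum_erase Finset.univ _ (Finset.mem_univ (1 : G)), mul_add]
    refine Nat.add_le_add (Nat.mul_le_mul_left 2 (fiber_one ht)) ?_
    rw [Finset.mul_sum]
    have h3 : ∀ x ∈ Finset.univ.erase (1 : G), 2 * Nat.card {q : G × G // f q = x} ≤
        Nat.card G := by
      intro x hx
      have hx1 : x ≠ 1 := Finset.ne_of_mem_erase hx
      have h4 := fiber_le ht x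
      have h5 := hcon x hx1
      have h6 := Subgroup.card_mul_index (Subgroup.centralizer {x})
      calc 2 * Nat.card {q : G × G // f q = x}
          ≤ 2 * (Nat.card (Subgroup.centralizer {x}) * (c * c)) := Nat.mul_le_mul_left 2 h4
        _ = Nat.card (Subgroup.centralizer {x}) * (2 * c ^ 2) := by ring
        _ ≤ Nat.card (Subgroup.centralizer {x}) * (Subgroup.centralizer {x}).index :=
            Nat.mul_le_mul_left _ h5.le
        _ = Nat.card G := h6
    refine (Finset.sum_le_sum h3).trans ?_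
    rw [Finset.sum_const, smul_eq_mul]
    refine Nat.mul_le_mul_right _ ?_
    rw [Nat.card_eq_fintype_card]
    exact Finset.card_le_univ _
  have h3 : Nat.card G * Nat.card G ≤ Nat.card G * (2 * c) := by
    rw [← h1] at h2
    have : 2 * (Nat.card G * c) = Nat.card G * (2 * c) := by ring
    omega
  have h4 : Nat.card G ≤ 2 * c := Nat.le_of_mul_le_mul_left h3 Nat.card_pos
  omega

theorem card_le_factorial_index [IsSimpleGroup G] {H : Subgroup G} (hH : H ≠ ⊤) :
    Nat.card G ≤ H.index ! := by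
  have h1 : H.normalCore = ⊥ := by
    rcases IsSimpleGroup.eq_bot_or_eq_top_of_normal H.normalCore inferInstance with h | h
    · exact h
    · exact absurd (top_le_iff.mp (h.ge.trans H.normalCore_le)) hH
  have h2 : Function.Injective (MulAction.toPermHom G (G ⧸ H)) := by
    rw [← MonoidHom.ker_eq_bot_iff, ← Subgroup.normalCore_eq_ker]
    exact h1
  have h3 := Nat.card_le_card_of_injective _ h2
  rwa [Nat.card_perm] at h3

/-- The Brauer-Fowler theorem. -/
theorem brauer_fowler [IsSimpleGroup G] (hna : ¬ ∀ x y : G, x * y = y * x) {t : G}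
    (ht : t * t = 1) :
    Nat.card G ≤ (2 * Nat.card (Subgroup.centralizer {t}) ^ 2)! := by
  by_cases hG : Nat.card G ≤ 2 * Nat.card (Subgroup.centralizer {t})
  · refine hG.trans (le_trans ?_ (Nat.self_le_factorial _))
    refine Nat.mul_le_mul_left 2 ?_
    rw [sq]
    exact Nat.le_mul_self _
  · obtain ⟨x, hx, hidx⟩ := exists_index_le ht (not_le.mp hG)
    refine (card_le_factorial_index (H := Subgroup.centralizer {x}) ?_).trans
      (Nat.factorial_le hidx)
    intro htop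
    have h1 : x ∈ Subgroup.center G := by
      rw [Subgroup.mem_center_iff]
      intro g
      have h2 : g ∈ Subgroup.centralizer {x} := by rw [htop]; exact Subgroup.mem_top g
      exact Subgroup.mem_centralizer_singleton_iff.mp h2
    rcases IsSimpleGroup.eq_bot_or_eq_top_of_normal (Subgroup.center G) inferInstance with h | h
    · rw [h, Subgroup.mem_bot] at h1
      exact hx h1
    · apply hna
      intro a b
      have h2 : b ∈ Subgroup.center G := by rw [h]; exact Subgroup.mem_top b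
      exact Subgroup.mem_center_iff.mp h2 a

end Count

end Vale.Agent.P180.H768.BF
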