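import Vale.Agent.P180.H768.Brauer

/-!
P180: blocks of central extensions of groups of characteristic `p` type.
-/

namespace Vale.Agent.P180.H768.Gd

open Vale.Agent.P180

variable {k : Type*} [Field k] {p : ℕ} [Fact p.Prime] [CharP k p] {G : Type*} [Group G] [Finite G]

/-- Powers of elements supported on an abelian group. -/
theorem pow_mem {C Z : Subgroup G} (hC : ∀ x ∈ C, ∀ y ∈ C, x * y = y * x) {r : ℕ}
    (hr : ∀ c ∈ C, c ^ p ^ r ∈ Z) {a : MonoidAlgebra k G} (ha : a ∈ SubAlg k C) :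
    a ^ p ^ r ∈ SubAlg k Z := by
  have hp : 0 < p ^ r := pow_pos (Nat.Prime.pos Fact.out) r
  have hcharp : CharP (MonoidAlgebra k G) p :=
    charP_of_injective_algebraMap (FaithfulSMul.algebraMap_injective k (MonoidAlgebra k G)) p
  have key : a ∈ SubAlg k C ∧ a ^ p ^ r ∈ SubAlg k Z := by
    refine SuppIn.induction (P := fun a => a ∈ SubAlg k C ∧ a ^ p ^ r ∈ SubAlg k Z) ha ?_ ?_ ?_
    · refine ⟨Subalgebra.zero_mem _, ?_⟩
      rw [zero_pow hp.ne']
      exact Subalgebra.zero_mem _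
    · rintro a b ⟨ha, ha'⟩ ⟨hb, hb'⟩
      have hbF : b ∈ Fix (cj k G) C := by
        intro g hg
        exact cj_eq_self_of_commute hb fun x hx => hC g hg x hx
      have hab : Commute a b := commute_of_mem ha hbF
      refine ⟨Subalgebra.add_mem _ ha hb, ?_⟩
      rw [add_pow_char_pow_of_commute _ _ hab]
      exact Subalgebra.add_mem _ ha' hb'
    · intro x hx c
      refine ⟨Subalgebra.smul_mem _ (single_mem_SubAlg hx 1) c, ?_⟩
      rw [smul_pow, MonoidAlgebra.single_pow, one_pow]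
      exact Subalgebra.smul_mem _ (single_mem_SubAlg (hr x hx) 1) _
  exact key.2

/-- A defect group of a block of a central extension of a group of characteristic `p` type is
central or a Sylow subgroup. -/
theorem sylow_or_central {G : Type} [Group G] [Finite G] {Z Y W : Subgroup G}
    (hZ : ∀ z ∈ Z, ∀ g, z * g = g * z) (hpZ : ¬ p ∣ Nat.card Z)
    (hY : IsPGroup p Y) (hYc : ∀ y ∈ Y, ∀ g, y * g = g * y) [W.Normal] (hW : W = Z ⊔ Y)
    {n : ℕ} (hCT : IsLocalChar p n (G ⧸ W)) {f a : MonoidAlgebra k G} {D : Subgroup G} (hf : IsIdempotentElem f)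
    (hD : IsPGroup p D) (hDn : Nat.card D ≤ n) (ha : a ∈ Fix (cj k G) D) (hfa : f = tr (cj k G) D ⊤ a)
    (hco : ∃ c, (∀ h ∈ D, h * c * h⁻¹ = c) ∧ f.coeff c ≠ 0) : D ≤ W ∨ ¬ p ∣ D.index := by
  classical
  have hfF : f ∈ Fix (cj k G) ⊤ := by rw [hfa]; exact tr_mem_Fix ha
  have hf0 : f ≠ 0 := by
    rintro rfl
    obtain ⟨c, -, hc⟩ := hco
    exact hc rfl
  have hYn : Y.Normal := by
    constructor
    intro y hy g
    rw [← hYc y hy g, mul_inv_cancel_right]
    exact hy
  have hYD : Y ≤ D := op_le p hY hf hf0 ha hfa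
  by_cases hDW : D ≤ W
  · exact Or.inl hDW
  right
  have hWmem : ∀ w ∈ W, ∃ z ∈ Z, ∃ y ∈ Y, z * y = w := by
    intro w hw
    rw [hW] at hw
    exact mem_sup_of_commute (fun z hz y _ => hZ z hz y) hw
  -- the Brauer image of `f`
  obtain ⟨c₀, hc₀, hc₀'⟩ := hco
  have hf1 : br D f ≠ 0 := by
    intro h
    apply hc₀'
    have h1 : (br D f).coeff c₀ = 0 := by rw [h]; rfl
    rwa [br_coeff, if_pos (mem_cent.mpr hc₀)] at h1
  have hf2 : IsIdempotentElem (br D f) := by
    change br D f * br D f = br D f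
    rw [← br_mul hD (Fix_mono _ le_top hfF) (Fix_mono _ le_top hfF), hf.eq]
  have hf3 : br D f = tr (cj k G) D (Subgroup.normalizer (D : Set G)) (br D a) := by
    conv_lhs => rw [hfa]
    exact br_tr hD ha
  obtain ⟨N, hN⟩ : ∃ N, N = Subgroup.normalizer (D : Set G) := ⟨_, rfl⟩
  rw [← hN] at hf3
  have hDN : D ≤ N := by rw [hN]; exact Subgroup.le_normalizer
  have hCN : Subgroup.centralizer (D : Set G) ≤ N := by
    rw [hN]; exact Subgroup.centralizer_le_normalizer _
  have hbrfix : br D a ∈ Fix (cj k G) D := by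
    intro d hd
    exact cj_eq_self_of_commute (br_mem D a) fun x hx =>
      Subgroup.mem_centralizer_iff.mp hx d hd
  -- normal `p`-subgroups of `N`
  obtain ⟨f', hf'⟩ := exists_incl N (SubAlg_mono hCN (br_mem D f))
  obtain ⟨a', ha'⟩ := exists_incl N (SubAlg_mono hCN (br_mem D a))
  have hmapD : (D.subgroupOf N).map N.subtype = D := Subgroup.map_subgroupOf_eq_of_le hDN
  have ha'F : a' ∈ Fix (cj k N) (D.subgroupOf N) := by
    rw [← incl_mem_Fix_iff, hmapD, ha']
    exact hbrfix
  have hf'a : f' = tr (cj k N) (D.subgroupOf N) ⊤ a' := by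
    apply incl_injective (k := k) N
    rw [incl_tr N _ ha'F, hmapD, hf', ha']
    exact hf3
  have hf'i : IsIdempotentElem f' := by
    apply incl_injective (k := k) N
    rw [map_mul, hf', hf2.eq]
  have hf'0 : f' ≠ 0 := by
    rintro rfl
    rw [map_zero] at hf'
    exact hf1 hf'.symm
  have hOp : ∀ P : Subgroup N, P.Normal → IsPGroup p P → P ≤ D.subgroupOf N :=
    fun P hP hPp => op_le p hPp hf'i hf'0 ha'F hf'a
  -- an element of `D W` of order a power of `p` is in `D`
  have hDWp : ∀ d ∈ D, ∀ w ∈ W, (∃ r, (d * w) ^ p ^ r = 1) → d * w ∈ D := by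
    intro d hd w hw ⟨r, hr⟩
    obtain ⟨z, hz, y, hy, rfl⟩ := hWmem w hw
    have hdy : d * y ∈ D := D.mul_mem hd (hYD hy)
    obtain ⟨s, hs⟩ := hD ⟨_, hdy⟩
    have hs' : (d * y) ^ p ^ s = 1 := congrArg Subtype.val hs
    have e1 : d * (z * y) = z * (d * y) := by rw [← mul_assoc, ← hZ z hz d, mul_assoc]
    have hcomm : Commute z (d * y) := hZ z hz _
    have h1 : z ^ p ^ (r + s) = 1 := by
      have h2 : (d * (z * y)) ^ p ^ (r + s) = 1 := by
        rw [pow_add, pow_mul, hr, one_pow]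
      rw [e1, hcomm.mul_pow] at h2
      have h3 : (d * y) ^ p ^ (r + s) = 1 := by
        rw [add_comm r s, pow_add, pow_mul, hs', one_pow]
      rwa [h3, mul_one] at h2
    have h4 : z = 1 := by
      have h5 : orderOf z ∣ p ^ (r + s) := orderOf_dvd_of_pow_eq_one h1
      have h6 : orderOf z ∣ Nat.card Z := by
        have := orderOf_dvd_natCard (⟨z, hz⟩ : Z)
        rwa [Subgroup.orderOf_mk] at this
      have h7 : Nat.Coprime (p ^ (r + s)) (Nat.card Z) :=
        Nat.Coprime.pow_left _ ((Nat.Prime.coprime_iff_not_dvd Fact.out).mpr hpZ)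
      have h8 := Nat.eq_one_of_dvd_coprimes h7 h5 h6
      rwa [orderOf_eq_one_iff] at h8
    rw [h4, one_mul]
    exact hdy
  -- the image of `D` in `G / W`
  set π := QuotientGroup.mk' W with hπ
  have hπs : Function.Surjective π := QuotientGroup.mk'_surjective W
  have hπW : ∀ x, π x = 1 ↔ x ∈ W := fun x => QuotientGroup.eq_one_iff x
  have hπeq : ∀ x y, π x = π y → ∃ w ∈ W, x = y * w := by
    intro x y h
    refine ⟨y⁻¹ * x, ?_, by group⟩
    rw [← hπW, map_mul, map_inv, h, inv_mul_cancel]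
  have hnorm : ∀ x, π x ∈ Subgroup.normalizer ((D.map π : Subgroup (G ⧸ W)) : Set (G ⧸ W)) →
      x ∈ N := by
    intro x hx
    rw [hN]
    refine Subgroup.mem_normalizer_fintype fun d hd => ?_
    have h1 := (Subgroup.mem_normalizer_iff.mp hx (π d)).mp (Subgroup.mem_map_of_mem π hd)
    obtain ⟨d', hd', hdd⟩ := h1
    rw [← map_inv, ← map_mul, ← map_mul] at hdd
    obtain ⟨w, hw, hxw⟩ := hπeq _ _ hdd.symm
    rw [hxw]
    refine hDWp d' hd' w hw ?_
    obtain ⟨r, hr⟩ := hD ⟨_, hd⟩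
    have hr' : d ^ p ^ r = 1 := congrArg Subtype.val hr
    refine ⟨r, ?_⟩
    rw [← hxw, conj_pow, hr', mul_one, mul_inv_cancel]
  have hnorm' : ∀ x ∈ N, π x ∈
      Subgroup.normalizer ((D.map π : Subgroup (G ⧸ W)) : Set (G ⧸ W)) := by
    intro x hx
    refine Subgroup.mem_normalizer_fintype ?_
    rintro _ ⟨d, hd, rfl⟩
    rw [hN] at hx
    refine ⟨x * d * x⁻¹, (Subgroup.mem_normalizer_iff.mp hx d).mp hd, ?_⟩
    rw [map_mul, map_mul, map_inv]
  have hcent := hCT (D.map π) (by
      intro h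
      apply hDW
      intro d hd
      have h1 := Subgroup.mem_map_of_mem π hd
      rw [h, Subgroup.mem_bot] at h1
      exact (hπW d).mp h1) (hD.map π)
      ((Nat.card_le_card_of_surjective _ (π.subgroupMap_surjective D)).trans hDn) (by
      intro P hP hPN hPst
      -- the preimage of `P` in `N`
      let P₁ : Subgroup N := (P.comap π).subgroupOf N
      have hP₁n : P₁.Normal := by
        constructor
        intro x hx g
        have h1 : π (x : G) ∈ P := hx
        have h2 := hPst _ (hnorm' g g.2) _ h1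
        rw [← map_mul, ← map_inv, ← map_mul] at h2
        exact h2
      let Z₁ : Subgroup N := Z.subgroupOf N
      have hZN : Z ≤ N := by
        intro z hz
        apply hCN
        rw [Subgroup.mem_centralizer_iff]
        exact fun d _ => (hZ z hz d).symm
      have hZ₁ : ∀ z ∈ Z₁, ∀ g, z * g = g * z := fun z hz g => Subtype.ext (hZ _ hz g)
      have hpZ₁ : ¬ p ∣ Nat.card Z₁ := by
        rwa [Nat.card_congr (Subgroup.subgroupOfEquivOfLe hZN).toEquiv]
      have hZP : Z₁ ≤ P₁ := by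
        intro z hz
        have h1 : π (z : G) = 1 := (hπW _).mpr (by rw [hW]; exact le_sup_left (a := Z) hz)
        change π (z : G) ∈ P
        rw [h1]
        exact P.one_mem
      have hpow : ∀ x ∈ P₁, ∃ n : ℕ, x ^ p ^ n ∈ Z₁ := by
        intro x hx
        obtain ⟨r, hr⟩ := hP ⟨π (x : G), hx⟩
        have hr' : π (x : G) ^ p ^ r = 1 := congrArg Subtype.val hr
        rw [← map_pow, hπW] at hr'
        obtain ⟨z, hz, y, hy, hzy⟩ := hWmem _ hr'
        obtain ⟨s, hs⟩ := hY ⟨y, hy⟩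
        have hs' : y ^ p ^ s = 1 := congrArg Subtype.val hs
        refine ⟨r + s, ?_⟩
        change ((x ^ p ^ (r + s) : N) : G) ∈ Z
        rw [Subgroup.coe_pow, pow_add, pow_mul, ← hzy,
          (show Commute z y from hZ z hz y).mul_pow, hs', mul_one]
        exact Z.pow_mem hz _
      obtain ⟨Q, hQn, hQp, -, hQ⟩ := exists_normal_pSubgroup hZ₁ hpZ₁ hZP hpow
      have hQD := hOp Q hQn hQp
      intro q hq
      obtain ⟨x, rfl⟩ := hπs q
      have hxN : x ∈ N := hnorm x (hPN hq)
      obtain ⟨z, hz, u, hu, hzu⟩ := mem_sup_of_commute (fun z hz y _ => hZ₁ z hz y)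
        (hQ (show (⟨x, hxN⟩ : N) ∈ P₁ from hq))
      have h1 : (z : G) * (u : G) = x := congrArg Subtype.val hzu
      have h2 : (u : G) ∈ D := hQD hu
      have h3 : π (z : G) = 1 := (hπW _).mpr (by rw [hW]; exact le_sup_left (a := Z) hz)
      rw [← h1, map_mul, h3, one_mul]
      exact Subgroup.mem_map_of_mem π h2)
  -- the centralizer of `D`
  have hcD : ∀ c ∈ Subgroup.centralizer (D : Set G), ∃ d ∈ D, ∃ z ∈ Z, c = d * z := by
    intro c hc
    have h1 : π c ∈ Subgroup.centralizer ((D.map π : Subgroup (G ⧸ W)) : Set (G ⧸ W)) := by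
      rw [Subgroup.mem_centralizer_iff]
      rintro _ ⟨d, hd, rfl⟩
      rw [← map_mul, Subgroup.mem_centralizer_iff.mp hc d hd, map_mul]
    obtain ⟨d, hd, hdc⟩ := hcent h1
    obtain ⟨w, hw, hcw⟩ := hπeq _ _ hdc.symm
    obtain ⟨z, hz, y, hy, rfl⟩ := hWmem w hw
    refine ⟨d * y, D.mul_mem hd (hYD hy), z, hz, ?_⟩
    rw [hcw, hZ z hz y, mul_assoc]
  have hcab : ∀ x ∈ Subgroup.centralizer (D : Set G), ∀ y ∈ Subgroup.centralizer (D : Set G),
      x * y = y * x := by
    intro x hx y hy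
    obtain ⟨d, hd, z, hz, rfl⟩ := hcD y hy
    calc x * (d * z) = (x * d) * z := by group
      _ = (d * x) * z := by rw [Subgroup.mem_centralizer_iff.mp hx d hd]
      _ = d * (x * z) := by group
      _ = d * (z * x) := by rw [hZ z hz x]
      _ = d * z * x := by group
  obtain ⟨r, hr⟩ := IsPGroup.iff_card.mp hD
  have hsuppZ : br D f ∈ SubAlg k Z := by
    have h1 := pow_mem (k := k) (p := p) (r := r) (Z := Z) hcab (by
      intro c hc
      obtain ⟨d, hd, z, hz, hcdz⟩ := hcD c hc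
      have h2 : d ^ p ^ r = 1 := by
        have h3 : (⟨d, hd⟩ : D) ^ Nat.card D = 1 := pow_card_eq_one'
        rw [hr] at h3
        exact congrArg Subtype.val h3
      rw [hcdz, (show Commute d z from (hZ z hz d).symm).mul_pow, h2, one_mul]
      exact Z.pow_mem hz _) (br_mem D f)
    have h4 : (br D f) ^ p ^ r = br D f := by
      have h5 : p ^ r ≠ 0 := (pow_pos (Nat.Prime.pos Fact.out) r).ne'
      obtain ⟨j, hj⟩ := Nat.exists_eq_succ_of_ne_zero h5
      rw [hj]
      exact hf2.pow_succ_eq j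
    rwa [h4] at h1
  -- conclusion
  intro hdvd
  have hmod := Sylow.card_quotient_normalizer_modEq_card_quotient (H := D) hr
  have h1 : p ∣ D.relIndex N := by
    have h2 : Nat.card (G ⧸ D) ≡ 0 [MOD p] := (Nat.modEq_zero_iff_dvd).mpr hdvd
    have h3 := (Nat.modEq_zero_iff_dvd).mp (hmod.trans h2)
    rw [hN]
    exact h3
  apply hf1
  apply MonoidAlgebra.coeff_injective
  ext c
  change (br D f).coeff c = 0
  by_cases hc : c ∈ Z
  · rw [hf3, KP.coeff_tr _ c (by
      intro g _
      rw [← hZ c hc g, mul_inv_cancel_right])]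
    rw [(CharP.cast_eq_zero_iff k p _).mpr h1, zero_mul]
  · by_contra h0
    exact hc (hsuppZ c h0)

end Vale.Agent.P180.H768.Gd
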