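import Vale.Agent.P180.H768.LocalChar
import Vale.Agent.P180.Bdl.B1

/-!
Groups in which the centralisers of the nontrivial `p`-elements are `p`-groups: this property
passes to sections, and implies local characteristic `p`.
-/

namespace Vale.Agent.P180.H768.Cp

open Vale.Agent.P180

/-- The centralisers of the nontrivial `p`-elements are `p`-groups. -/
def IsCpp (p : ℕ) (K : Type) [Group K] : Prop :=
  ∀ x y : K, x ≠ 1 → (∃ a : ℕ, x ^ p ^ a = 1) → x * y = y * x → ∃ b : ℕ, y ^ p ^ b = 1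

theorem exists_commute {q : ℕ} [Fact q.Prime] {K S : Type} [Group K] [Group S] [Finite K]
    (f : K →* S) (hf : Function.Surjective f) {x : K} (hx : ∃ a : ℕ, x ^ q ^ a = 1) {y : S}
    (hxy : f x * y = y * f x) (hker : ¬ q ∣ Nat.card f.ker) :
    ∃ z, f z = y ∧ x * z = z * x := by
  let P : Subgroup K := Subgroup.zpowers x
  have hP : IsPGroup q P := by
    obtain ⟨j, hj⟩ := hx
    rintro ⟨w, hw⟩
    obtain ⟨i, rfl⟩ := Subgroup.mem_zpowers_iff.mp hw
    refine ⟨j, Subtype.ext ?_⟩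
    change (x ^ i) ^ q ^ j = 1
    rw [← zpow_natCast, ← zpow_mul, mul_comm, zpow_mul, zpow_natCast, hj, one_zpow]
  have hPy : ∀ g ∈ P, f g * y = y * f g := by
    intro g hg
    obtain ⟨i, rfl⟩ := Subgroup.mem_zpowers_iff.mp hg
    rw [map_zpow]
    exact (show Commute (f x) y from hxy).zpow_left i
  let _ : MulAction P {z : K // f z = y} :=
    { smul := fun g z => ⟨g * z.1 * (g : K)⁻¹, by
        rw [map_mul, map_mul, z.2, map_inv, hPy g g.2, mul_inv_cancel_right]⟩
      one_smul := fun z => Subtype.ext (by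
        change 1 * z.1 * 1⁻¹ = z.1
        simp)
      mul_smul := fun g h z => Subtype.ext (by
        change (g : K) * h * z.1 * ((g : K) * h)⁻¹ = g * (h * z.1 * (h : K)⁻¹) * (g : K)⁻¹
        group) }
  obtain ⟨z₀, hz₀⟩ := hf y
  have hcard : Nat.card {z : K // f z = y} = Nat.card f.ker := by
    refine Nat.card_congr ⟨fun z => ⟨z₀⁻¹ * z.1, ?_⟩, fun w => ⟨z₀ * w.1, ?_⟩, ?_, ?_⟩
    · rw [MonoidHom.mem_ker, map_mul, map_inv, hz₀, z.2, inv_mul_cancel]
    · rw [map_mul, hz₀, MonoidHom.mem_ker.mp w.2, mul_one]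
    · intro z
      exact Subtype.ext (mul_inv_cancel_left _ _)
    · intro w
      exact Subtype.ext (inv_mul_cancel_left _ _)
  obtain ⟨z, hz⟩ := hP.nonempty_fixed_point_of_prime_not_dvd_card {z : K // f z = y}
    (by rwa [hcard])
  refine ⟨z.1, z.2, ?_⟩
  have h1 := congrArg Subtype.val (hz ⟨x, Subgroup.mem_zpowers x⟩)
  have h2 : x * z.1 * x⁻¹ = z.1 := h1
  rwa [mul_inv_eq_iff_eq_mul] at h2

theorem IsCpp.of_injective {p : ℕ} {K L : Type} [Group K] [Group L] (h : IsCpp p L)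
    (f : K →* L) (hf : Function.Injective f) : IsCpp p K := by
  intro x y hx ⟨a, ha⟩ hxy
  obtain ⟨b, hb⟩ := h (f x) (f y) (fun h1 => hx (hf (h1.trans (map_one f).symm)))
    ⟨a, by rw [← map_pow, ha, map_one]⟩ (by rw [← map_mul, hxy, map_mul])
  exact ⟨b, hf (by rw [map_pow, hb, map_one])⟩

theorem eq_one_of_coprime {G : Type} [Group G] {p r a : ℕ} [Fact p.Prime] (hr : ¬ p ∣ r) {x : G}
    (h1 : x ^ r = 1) (h2 : x ^ p ^ a = 1) : x = 1 := by
  have h3 := orderOf_dvd_of_pow_eq_one h1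
  have h4 := orderOf_dvd_of_pow_eq_one h2
  have h5 : Nat.Coprime (p ^ a) r :=
    Nat.Coprime.pow_left _ ((Nat.Prime.coprime_iff_not_dvd Fact.out).mpr hr)
  have h6 := Nat.eq_one_of_dvd_coprimes h5 h4 h3
  rwa [orderOf_eq_one_iff] at h6

theorem IsCpp.of_ker_p' {p : ℕ} [Fact p.Prime] {K S : Type} [Group K] [Group S] [Finite K]
    (h : IsCpp p K) (f : K →* S) (hf : Function.Surjective f) (hker : ¬ p ∣ Nat.card f.ker) :
    IsCpp p S := by
  rintro s y hs ⟨b, hb⟩ hsy
  obtain ⟨x₀, rfl⟩ := hf s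
  obtain ⟨a, r, hr, hN⟩ := Nat.exists_eq_pow_mul_and_not_dvd (orderOf_pos x₀).ne' p
    (Nat.Prime.one_lt Fact.out).ne'
  have hx1 : (x₀ ^ r) ^ p ^ a = 1 := by
    rw [← pow_mul, mul_comm, ← hN]
    exact pow_orderOf_eq_one x₀
  have hne : x₀ ^ r ≠ 1 := by
    intro h1
    apply hs
    refine eq_one_of_coprime hr ?_ hb
    rw [← map_pow, h1, map_one]
  obtain ⟨z, hz, hxz⟩ := exists_commute f hf (x := x₀ ^ r) ⟨a, hx1⟩ (y := y) (by
    rw [map_pow]
    exact (show Commute (f x₀) y from hsy).pow_left r) hker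
  obtain ⟨c, hc⟩ := h _ z hne ⟨a, hx1⟩ hxz
  refine ⟨c, ?_⟩
  rw [← hz, ← map_pow, hc, map_one]

theorem IsCpp.of_ker_p {p : ℕ} [Fact p.Prime] {K S : Type} [Group K] [Group S] [Finite K]
    (h : IsCpp p K) (f : K →* S) (hf : Function.Surjective f) (hker : IsPGroup p f.ker) :
    IsCpp p S := by
  rintro s y hs ⟨b, hb⟩ hsy
  obtain ⟨z₀, rfl⟩ := hf y
  obtain ⟨a, r, hr, hN⟩ := Nat.exists_eq_pow_mul_and_not_dvd (orderOf_pos z₀).ne' p
    (Nat.Prime.one_lt Fact.out).ne'
  refine ⟨a, ?_⟩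
  by_contra hcon
  have hz1 : (z₀ ^ p ^ a) ^ r = 1 := by
    rw [← pow_mul, ← hN]
    exact pow_orderOf_eq_one z₀
  have hr1 : r ≠ 1 := by
    rintro rfl
    rw [pow_one] at hz1
    exact hcon (by rw [← map_pow, hz1, map_one])
  obtain ⟨q, hq, hqr⟩ := Nat.exists_prime_and_dvd hr1
  have hqp : q ≠ p := by
    rintro rfl
    exact hr hqr
  obtain ⟨r', hr'⟩ := hqr
  have _ : Fact q.Prime := ⟨hq⟩
  -- an element of order `q`
  set z := z₀ ^ (p ^ a * r') with hz
  have hzq : z ^ q = 1 := by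
    rw [hz, ← pow_mul, mul_assoc, mul_comm r' q, ← hr', ← hN]
    exact pow_orderOf_eq_one z₀
  have hzne : z ≠ 1 := by
    intro h1
    have h2 := orderOf_dvd_of_pow_eq_one h1
    rw [hN, hr'] at h2
    have h3 : p ^ a * (q * r') ∣ p ^ a * r' := h2
    have h4 : q * r' ∣ r' := Nat.dvd_of_mul_dvd_mul_left (pow_pos (Nat.Prime.pos Fact.out) a) h3
    have h5 : 0 < r' := by
      rcases Nat.eq_zero_or_pos r' with h0 | h0
      · rw [h0, mul_zero] at hr'
        rw [hr'] at hr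
        exact absurd (dvd_zero p) hr
      · exact h0
    have h6 := Nat.le_of_dvd h5 h4
    have h7 := hq.two_le
    nlinarith
  obtain ⟨j, hj⟩ := IsPGroup.iff_card.mp hker
  obtain ⟨x, hx, hzx⟩ := exists_commute (q := q) f hf (x := z) ⟨1, by rw [pow_one]; exact hzq⟩
    (y := s) (by
      rw [hz, map_pow]
      exact (show Commute (f z₀) s from hsy.symm).pow_left _) (by
      rw [hj]
      intro h1
      have h2 := hq.dvd_of_dvd_pow h1
      exact hqp ((Nat.prime_dvd_prime_iff_eq hq Fact.out).mp h2))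
  have hxne : x ≠ 1 := by
    rintro rfl
    exact hs (by rw [← hx, map_one])
  have hxp : ∃ c : ℕ, x ^ p ^ c = 1 := by
    have h1 : f (x ^ p ^ b) = 1 := by rw [map_pow, hx, hb]
    obtain ⟨c, hc⟩ := hker ⟨x ^ p ^ b, h1⟩
    refine ⟨b + c, ?_⟩
    rw [pow_add, pow_mul]
    exact congrArg Subtype.val hc
  obtain ⟨c, hc⟩ := h x z hxne hxp hzx.symm
  apply hzne
  refine eq_one_of_coprime (p := p) (r := q) ?_ hzq hc
  intro h1
  exact hqp ((Nat.prime_dvd_prime_iff_eq Fact.out hq).mp h1).symm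

theorem IsCpp.of_surjective {p : ℕ} [Fact p.Prime] {K S : Type} [Group K] [Group S] [Finite K]
    (h : IsCpp p K) (f : K →* S) (hf : Function.Surjective f) : IsCpp p S := by
  let L : Subgroup K := f.ker
  let P : Sylow p L := default
  let P' : Subgroup K := (P : Subgroup L).map L.subtype
  let N : Subgroup K := Subgroup.normalizer (P' : Set K)
  have hNL : N ⊔ L = ⊤ := Sylow.normalizer_sup_eq_top P
  have hPL : P' ≤ L := Subgroup.map_subtype_le _
  have hPN : P' ≤ N := Subgroup.le_normalizer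
  let fN : N →* S := f.comp N.subtype
  have hfN : Function.Surjective fN := by
    intro s
    obtain ⟨x, rfl⟩ := hf s
    have h1 : x ∈ ((N ⊔ L : Subgroup K) : Set K) := by rw [hNL]; exact Subgroup.mem_top x
    rw [Subgroup.mul_normal] at h1
    obtain ⟨a, ha, l, hl, rfl⟩ := Set.mem_mul.mp h1
    refine ⟨⟨a, ha⟩, ?_⟩
    change f a = f (a * l)
    rw [map_mul, MonoidHom.mem_ker.mp hl, mul_one]
  let Q : Subgroup N := P'.subgroupOf N
  have hQn : Q.Normal := Subgroup.normal_in_normalizer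
  have hQp : IsPGroup p Q :=
    (P.2.map L.subtype).comap_of_injective N.subtype N.subtype_injective
  have h1 : IsCpp p N := h.of_injective N.subtype N.subtype_injective
  have h2 : IsCpp p (N ⧸ Q) := h1.of_ker_p (QuotientGroup.mk' Q)
    (QuotientGroup.mk'_surjective Q) (by rw [QuotientGroup.ker_mk']; exact hQp)
  have hQker : Q ≤ fN.ker := fun x hx => hPL hx
  refine h2.of_ker_p' (QuotientGroup.lift Q fN hQker) ?_ ?_
  · intro s
    obtain ⟨x, rfl⟩ := hfN s
    exact ⟨QuotientGroup.mk' Q x, rfl⟩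
  · have h3 : (QuotientGroup.lift Q fN hQker).ker = fN.ker.map (QuotientGroup.mk' Q) :=
      QuotientGroup.ker_lift _ _ _
    have h4 : Q.relIndex fN.ker = P'.relIndex (L ⊓ N) := by
      have h5 : fN.ker = (L ⊓ N).subgroupOf N := by
        rw [Subgroup.inf_subgroupOf_right]
        rfl
      rw [h5]
      exact Subgroup.relIndex_subgroupOf inf_le_right
    rw [h3, ← relIndex_eq_card_map, h4]
    intro h5
    have h6 : P'.relIndex (L ⊓ N) * (L ⊓ N).relIndex L = P'.relIndex L :=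
      Subgroup.relIndex_mul_relIndex _ _ _ (le_inf hPL hPN) inf_le_left
    have h7 : P'.relIndex L = (P : Subgroup L).index := by
      rw [Subgroup.relIndex, Subgroup.subgroupOf,
        Subgroup.comap_map_eq_self_of_injective L.subtype_injective]
    have h8 := h5.trans (Dvd.intro _ h6)
    rw [h7] at h8
    exact P.not_dvd_index h8

theorem IsCpp.isLocalChar {p : ℕ} (n : ℕ) {S : Type} [Group S] (h : IsCpp p S) :
    IsLocalChar p n S := by
  intro Q hQ0 hQp _ hQ
  obtain ⟨⟨q, hq⟩, hq1⟩ : ∃ q : Q, q ≠ 1 := by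
    by_contra hcon
    push Not at hcon
    apply hQ0
    rw [eq_bot_iff]
    intro x hx
    exact Subgroup.mem_bot.mpr (congrArg Subtype.val (hcon ⟨x, hx⟩))
  refine hQ _ ?_ ?_ ?_
  · rintro ⟨c, hc⟩
    obtain ⟨a, ha⟩ := hQp ⟨q, hq⟩
    obtain ⟨b, hb⟩ := h q c (fun h1 => hq1 (Subtype.ext h1)) ⟨a, congrArg Subtype.val ha⟩
      (Subgroup.mem_centralizer_iff.mp hc q hq)
    exact ⟨b, Subtype.ext hb⟩
  · exact Subgroup.centralizer_le_normalizer _
  · intro g hg x hx
    rw [Subgroup.mem_centralizer_iff] at hx ⊢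
    intro w hw
    have h1 : g⁻¹ * w * g ∈ Q := by
      have := (Subgroup.mem_normalizer_iff.mp (Subgroup.inv_mem _ hg) w).mp hw
      rwa [inv_inv] at this
    have h2 := hx _ h1
    calc w * (g * x * g⁻¹) = g * ((g⁻¹ * w * g) * x) * g⁻¹ := by group
      _ = g * (x * (g⁻¹ * w * g)) * g⁻¹ := by rw [h2]
      _ = g * x * g⁻¹ * w := by group

end Vale.Agent.P180.H768.Cp
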