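import Vale.Agent.P180.H768.CharType

/-!
P180, normal series: defect groups of blocks of central extensions of groups of characteristic
`p` type.
-/

namespace Vale.Agent.P180.H768.Gd

open Vale.Agent.P180

universe u

variable {k : Type u} [Field k]

/-- a minimal subgroup from which a block is a trace centralises an element of its support -/
theorem exists_min_defect {p : ℕ} [Fact p.Prime] [CharP k p] {G : Type} [Group G] [Finite G]
    {e a : MonoidAlgebra k G} {D : Subgroup G} (he : IsBlockOf ⊤ e)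
    (ha : a ∈ Fix (cj k G) D) (hea : e = tr (cj k G) D ⊤ a) :
    ∃ D' ≤ D, ∃ a' ∈ Fix (cj k G) D', e = tr (cj k G) D' ⊤ a' ∧
      ∃ c, (∀ h ∈ D', h * c * h⁻¹ = c) ∧ e.coeff c ≠ 0 := by
  have heF : e ∈ Fix (cj k G) ⊤ := he.mem.2
  let P : Subgroup G → Prop := fun D' => D' ≤ D ∧ ∃ a' ∈ Fix (cj k G) D', a' * e = a' ∧
    e = tr (cj k G) D' ⊤ a'
  have hP : P D := by
    refine ⟨le_rfl, a * e, Subalgebra.mul_mem _ ha (Fix_mono _ le_top heF), ?_, ?_⟩
    · rw [mul_assoc, he.idem.eq]
    · rw [← tr_mul heF, ← hea, he.idem.eq]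
  obtain ⟨D', hD'⟩ := exists_minimal_of_wellFoundedLT P ⟨D, hP⟩
  obtain ⟨⟨hDD, a', haD, hae, hea'⟩, hmin⟩ := hD'
  refine ⟨D', hDD, a', haD, hea', ?_⟩
  by_contra hcon
  push Not at hcon
  obtain ⟨ι, hι, S, x, hSD, hS, hfix, hsum⟩ := KP.eq_sum_tr_single D' (Fix_mono _ le_top heF)
  have hfix' : ∀ o, a' * MonoidAlgebra.single (x o) (e.coeff (x o)) ∈ Fix (cj k G) (S o) :=
    fun o => Subalgebra.mul_mem _ (Fix_mono _ (hSD o) haD) (hfix o)
  have hez : e = ∑ o, tr (cj k G) (S o) ⊤
      (a' * MonoidAlgebra.single (x o) (e.coeff (x o))) := by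
    have h1 : e = tr (cj k G) D' ⊤ (a' * e) := by rw [hae]; exact hea'
    conv_lhs => rw [h1]
    conv_lhs => rw [hsum]
    rw [Finset.mul_sum, tr_sum]
    refine Finset.sum_congr rfl fun o _ => ?_
    rw [mul_tr haD, tr_tr (hfix' o) (hSD o) le_top]
  obtain ⟨o, -, y, hy, hye, hzy⟩ := he.exists_unit_of_sum ZAlg_comm Finset.univ
    (fun o => tr (cj k G) (S o) ⊤ (a' * MonoidAlgebra.single (x o) (e.coeff (x o))))
    (fun o _ => ⟨SubAlg_top _, tr_mem_Fix (hfix' o)⟩)
    (fun o _ => by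
      rw [tr_mul heF, mul_assoc, commute_of_mem (SubAlg_top _) heF, ← mul_assoc, hae]) hez.symm
  have hcand : P (S o) := by
    refine ⟨(hSD o).trans hDD, a' * MonoidAlgebra.single (x o) (e.coeff (x o)) * y, ?_, ?_, ?_⟩
    · exact Subalgebra.mul_mem _ (hfix' o) (Fix_mono _ le_top hy.2)
    · rw [mul_assoc, hye]
    · rw [← tr_mul hy.2, hzy]
  have hDS : D' ≤ S o := hmin hcand (hSD o)
  have h0 : e.coeff (x o) = 0 := hcon _ fun h hh => (hS o h hh).mp (hDS hh)
  have hz0 : tr (cj k G) (S o) ⊤ (a' * MonoidAlgebra.single (x o) (e.coeff (x o))) = 0 := by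
    rw [h0, MonoidAlgebra.single_zero, mul_zero]
    have := tr_smul (ρ := cj k G) (H := S o) (K := ⊤) 0 0
    simpa using this
  rw [hz0, zero_mul] at hzy
  exact he.ne_zero hzy.symm

/-- `IsLocalChar` is invariant under isomorphisms -/
theorem isLocalChar_of_equiv {p n : ℕ} {S T : Type} [Group S] [Group T] (e : S ≃* T)
    (h : IsLocalChar p n S) : IsLocalChar p n T := by
  intro Q hQ0 hQp hQn hQ
  have hsurj := e.surjective
  have h1 := h (Q.comap e.toMonoidHom) (by
    intro h0
    apply hQ0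
    rw [eq_bot_iff]
    intro x hx
    obtain ⟨y, rfl⟩ := hsurj x
    have h2 : y ∈ Q.comap e.toMonoidHom := hx
    rw [h0, Subgroup.mem_bot] at h2
    rw [h2, map_one]
    exact Subgroup.one_mem _) (hQp.comap_of_injective e.toMonoidHom e.injective) (by
    have h2 : Nat.card (Q.comap e.toMonoidHom) = Nat.card Q :=
      Nat.card_congr (e.toEquiv.subtypeEquiv fun _ => Iff.rfl)
    rw [h2]
    exact hQn) (by
    intro P hP hPN hPst x hx
    have hnorm : ∀ y : S, e y ∈ Subgroup.normalizer (Q : Set T) →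
        y ∈ Subgroup.normalizer ((Q.comap e.toMonoidHom : Subgroup S) : Set S) := by
      intro y hy
      rw [Subgroup.mem_normalizer_iff] at hy ⊢
      intro z
      have h3 := hy (e z)
      rw [← map_mul, ← map_inv, ← map_mul] at h3
      exact h3
    have hnorm' : ∀ y : S, y ∈ Subgroup.normalizer ((Q.comap e.toMonoidHom : Subgroup S) : Set S) →
        e y ∈ Subgroup.normalizer (Q : Set T) := by
      intro y hy
      rw [Subgroup.mem_normalizer_iff] at hy ⊢
      intro z
      obtain ⟨z, rfl⟩ := hsurj z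
      have h3 := hy z
      rw [← map_mul, ← map_inv, ← map_mul]
      exact h3
    have h3 := hQ (P.map e.toMonoidHom) (hP.map _) (by
      rintro _ ⟨y, hy, rfl⟩
      exact hnorm' y (hPN hy)) (by
      rintro g hg _ ⟨y, hy, rfl⟩
      obtain ⟨g, rfl⟩ := hsurj g
      exact ⟨g * y * g⁻¹, hPst g (hnorm g hg) y hy, by simp⟩)
    exact h3 ⟨x, hx, rfl⟩)
  intro x hx
  obtain ⟨y, rfl⟩ := hsurj x
  refine h1 (show y ∈ _ from ?_)
  rw [Subgroup.mem_centralizer_iff] at hx ⊢
  intro z hz
  apply e.injective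
  rw [map_mul, map_mul]
  exact hx (e z) hz

/-- the statement for a subgroup `S` of `G` -/
theorem defect_char_type {p n : ℕ} [Fact p.Prime] [CharP k p] {G : Type} [Group G] [Finite G]
    {Z Y W S : Subgroup G} (hWS : W ≤ S) (hZ : ∀ z ∈ Z, ∀ g, z * g = g * z)
    (hpZ : ¬ p ∣ Nat.card Z) (hY : IsPGroup p Y) (hYc : ∀ y ∈ Y, ∀ g ∈ S, y * g = g * y)
    [W.Normal] (hW : W = Z ⊔ Y) (hCT : IsLocalChar p n (S.map (QuotientGroup.mk' W)))
    {f z : MonoidAlgebra k G} {R : Subgroup G} (hf : IsBlockOf S f) (hR : IsPGroup p R)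
    (hRn : Nat.card R ≤ n) (hRS : R ≤ S) (hz : z ∈ SubAlg k S) (hzF : z ∈ Fix (cj k G) R)
    (hfz : f = tr (cj k G) R S z) :
    ∃ R' ≤ R, ∃ z' ∈ SubAlg k S, z' ∈ Fix (cj k G) R' ∧ f = tr (cj k G) R' S z' ∧
      (R' ≤ W ∨ ¬ p ∣ R'.relIndex S) := by
  obtain ⟨f', rfl⟩ := exists_incl S hf.mem.1
  obtain ⟨z', rfl⟩ := exists_incl S hz
  have hmapR : (R.subgroupOf S).map S.subtype = R := by
    rw [Subgroup.subgroupOf_map_subtype, inf_eq_left.mpr hRS]
  have hmapT : (⊤ : Subgroup S).map S.subtype = S := by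
    rw [← MonoidHom.range_eq_map, Subgroup.range_subtype]
  have hf' : IsBlockOf ⊤ f' := by
    rw [← isBlockOf_map_iff, hmapT]
    exact hf
  have hzF' : z' ∈ Fix (cj k S) (R.subgroupOf S) := by
    rw [← incl_mem_Fix_iff, hmapR]
    exact hzF
  have hfz' : f' = tr (cj k S) (R.subgroupOf S) ⊤ z' := by
    apply incl_injective (k := k) S
    rw [incl_tr S _ hzF', hmapR]
    exact hfz
  obtain ⟨D', hD'R, a', ha', hfa', hco⟩ := exists_min_defect (p := p) hf' hzF' hfz'
  have hD'p : IsPGroup p D' := by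
    have h1 : IsPGroup p (R.subgroupOf S) := hR.comap_of_injective S.subtype S.subtype_injective
    exact h1.to_le hD'R
  have hWW : W.subgroupOf S = Z.subgroupOf S ⊔ Y.subgroupOf S := by
    rw [hW] at hWS
    have hZS : Z ≤ S := le_sup_left.trans hWS
    have hYS : Y ≤ S := le_sup_right.trans hWS
    rw [hW, Subgroup.subgroupOf_sup hZS hYS]
  have hZS : Z ≤ S := by rw [hW] at hWS; exact le_sup_left.trans hWS
  have hCT' : IsLocalChar p n (S ⧸ W.subgroupOf S) := by
    refine isLocalChar_of_equiv ?_ hCT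
    let g : S →* (S.map (QuotientGroup.mk' W)) := (QuotientGroup.mk' W).subgroupMap S
    have hg : Function.Surjective g := (QuotientGroup.mk' W).subgroupMap_surjective S
    have hgk : g.ker = W.subgroupOf S := by
      ext x
      rw [MonoidHom.mem_ker, Subgroup.mem_subgroupOf]
      constructor
      · intro h
        have h1 : QuotientGroup.mk' W (x : G) = 1 := congrArg Subtype.val h
        exact (QuotientGroup.eq_one_iff _).mp h1
      · intro h
        exact Subtype.ext ((QuotientGroup.eq_one_iff _).mpr h)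
    exact ((QuotientGroup.quotientMulEquivOfEq hgk.symm).trans
      (QuotientGroup.quotientKerEquivOfSurjective g hg)).symm
  have h1 := sylow_or_central (k := k) (p := p) (G := S) (Z := Z.subgroupOf S)
    (Y := Y.subgroupOf S) (W := W.subgroupOf S)
    (fun z hz g => Subtype.ext (hZ _ hz g))
    (by rwa [Nat.card_congr (Subgroup.subgroupOfEquivOfLe hZS).toEquiv])
    (hY.comap_of_injective S.subtype S.subtype_injective)
    (fun y hy g => Subtype.ext (hYc _ hy _ g.2)) hWW hCT' hf'.idem hD'p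
    ((Nat.card_le_card_of_injective _ (Subgroup.inclusion_injective hD'R)).trans (by
      rw [Nat.card_congr (Subgroup.subgroupOfEquivOfLe hRS).toEquiv]
      exact hRn)) ha' hfa' hco
  refine ⟨D'.map S.subtype, ?_, incl k S a', incl_mem S a', ?_, ?_, ?_⟩
  · rintro _ ⟨x, hx, rfl⟩
    exact hD'R hx
  · rwa [incl_mem_Fix_iff]
  · rw [← incl_tr S _ ha', ← hfa']
  · rcases h1 with h1 | h1
    · left
      rintro _ ⟨x, hx, rfl⟩
      exact h1 hx
    · right
      rw [Subgroup.relIndex, Subgroup.subgroupOf, Subgroup.comap_map_eq_self_of_injective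
        S.subtype_injective]
      exact h1

end Vale.Agent.P180.H768.Gd
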