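import Vale.Agent.P180.H768.Top2
import Vale.Agent.P180.H768.Statement
import Vale.Agent.P180.H768.Cpp

/-!
P180: the group-theoretic conditions of the final theorem.
-/

namespace Vale.Agent.P180.H768.Gd

open Vale.Agent.P180

open scoped Nat

universe u

/-- The involutions of `L` have centralisers that are `2`-groups. -/
theorem isCpp_two {L : Type} [Group L]
    (h : ∀ x y : L, x ≠ 1 → x * x = 1 → x * y = y * x → ∃ a : ℕ, y ^ 2 ^ a = 1) :
    Cp.IsCpp 2 L := by
  intro x y hx ⟨a, ha⟩ hxy
  induction a generalizing x with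
  | zero =>
    rw [pow_zero, pow_one] at ha
    exact absurd ha hx
  | succ a ih =>
    by_cases h2 : x * x = 1
    · exact h x y hx h2 hxy
    · refine ih (x * x) h2 ?_ ?_
      · rw [← sq, ← pow_mul, ← pow_succ']
        exact ha
      · rw [mul_assoc, hxy, ← mul_assoc, hxy, mul_assoc]

theorem goodSections_of_cit {n m : ℕ} {L : Type} [Group L] [Finite L]
    (h : ∀ x y : L, x ≠ 1 → x * x = 1 → x * y = y * x → ∃ a : ℕ, y ^ 2 ^ a = 1) :
    GoodSections 2 n m L := by
  have _ : Fact (Nat.Prime 2) := ⟨Nat.prime_two⟩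
  intro K S _ _ f hf _ _
  have h1 : Cp.IsCpp 2 K := (isCpp_two h).of_injective K.subtype K.subtype_injective
  exact Or.inr ⟨(h1.of_surjective f hf).isLocalChar n, Or.inl rfl⟩

/-- The bound for the simple sections in the induction. -/
def mm (p n m : ℕ) : ℕ := max (max m (BF.bfBound n)) p

theorem le_mm (p n m : ℕ) : p ≤ mm p n m := le_max_right _ _

theorem isGood_of {p n m : ℕ} [Fact p.Prime] {L : Type} [Group L] [Finite L]
    (h : GoodSections p n m L) (K : Subgroup L) (S : Type) [Group S] [IsSimpleGroup S]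
    (f : K →* S) (hf : Function.Surjective f) (hp : p ∣ Nat.card S) :
    IsGood p n (mm p n m) S := by
  have hS : Finite S := Finite.of_surjective f hf
  by_cases hab : ∀ x y : S, x * y = y * x
  · let _ : CommGroup S := { (inferInstance : Group S) with mul_comm := hab }
    have h4 : (Nat.card S).Prime := IsSimpleGroup.prime_card
    have h5 := (Nat.prime_dvd_prime_iff_eq Fact.out h4).mp hp
    refine Or.inl ?_
    rw [← h5]
    exact le_mm p n m
  rcases h K S f hf hab hp with h1 | ⟨h1, h2 | h2⟩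
  · exact Or.inl ((h1.trans (le_max_left _ _)).trans (le_max_left _ _))
  · subst h2
    by_cases h3 : ∀ P : Subgroup S, IsPGroup 2 P → Nat.card P ≤ n
    · exact Or.inl (((BF.card_le_of_charType_two hp h1 h3).trans (le_max_right _ _)).trans
        (le_max_left _ _))
    · push Not at h3
      obtain ⟨P, hP, hPn⟩ := h3
      refine Or.inr ⟨h1, fun Q => ?_⟩
      obtain ⟨R, hR⟩ := hP.exists_le_sylow
      refine hPn.trans_le ?_
      rw [Nat.card_congr (Sylow.equiv Q R).toEquiv]
      exact Nat.card_le_card_of_injective _ (Subgroup.inclusion_injective hR)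
  · exact Or.inr ⟨h1, h2⟩

/-- The bound for the orders of the groups in the list. -/
def bound (p n m : ℕ) : ℕ := FF (2 * n + 1) n (mm p n m)

theorem series_spec {p n m : ℕ} [Fact p.Prime] {G : Type} [Group G] [Finite G] {D : Subgroup G}
    (h : HasGoodSeries p n m D) :
    ∃ (l : ℕ) (N : ℕ → Subgroup G) (_ : ∀ i, (N i).Normal), N 0 = ⊥ ∧ N l = ⊤ ∧
      (∀ i < l, N i ≤ N (i + 1)) ∧ ∀ i < l, RC p n (mm p n m) (N i) (N (i + 1)) ∨
        ∀ x ∈ D, x ∈ N (i + 1) → ∀ y ∈ N (i + 1), x * y * x⁻¹ * y⁻¹ ∈ N i := by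
  obtain ⟨l, N, hN, h0, hl, hlay⟩ := h
  refine ⟨l, N, hN, h0, hl, fun i hi => (hlay i hi).1, ?_⟩
  intro i hi
  rcases (hlay i hi).2 with h | h | ⟨h2, h⟩
  · exact Or.inr h
  · exact Or.inl (RC.of_hom (isGood_of h))
  · subst h2
    exact Or.inl (RC.of_hom (isGood_of (goodSections_of_cit h)))

/-- The class of `NormalClosureFactors` is contained in the new one. -/
theorem hasGoodSeries_of_closure {p n m : ℕ} {G : Type} [Group G] [Finite G] {D : Subgroup G}
    (N : Subgroup G) [hNn : N.Normal] (hDN : ∀ x ∈ D, x ∈ N → ∀ y ∈ N, x * y = y * x)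
    (h : BoundedFactors p m
      ((Subgroup.normalClosure (D : Set G)).map (QuotientGroup.mk' N))) :
    HasGoodSeries p n m D := by
  let M : Subgroup G := Subgroup.normalClosure (D : Set G)
  let F : ℕ → Subgroup G := fun i => if i = 0 then ⊥ else if i = 1 then N else
    if i = 2 then N ⊔ M else ⊤
  have hF0 : F 0 = ⊥ := rfl
  have hF1 : F 1 = N := rfl
  have hF2 : F 2 = N ⊔ M := rfl
  have hF3 : F 3 = ⊤ := rfl
  have hFn : ∀ i, (F i).Normal := by
    intro i
    change (if i = 0 then ⊥ else if i = 1 then N else if i = 2 then N ⊔ M else ⊤ :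
      Subgroup G).Normal
    split_ifs <;> infer_instance
  have hDM : D ≤ N ⊔ M := Subgroup.subset_normalClosure.trans (le_sup_right (a := N))
  refine ⟨3, F, hFn, hF0, hF3, ?_⟩
  intro i hi
  have hi' : i = 0 ∨ i = 1 ∨ i = 2 := by omega
  rcases hi' with rfl | rfl | rfl
  · refine ⟨bot_le, Or.inl ?_⟩
    intro x hx hxN y hy
    rw [hF0, Subgroup.mem_bot, hDN x hx hxN y hy]
    group
  · refine ⟨le_sup_left, Or.inr (Or.inl ?_)⟩
    have h1 : ((F 2).map (QuotientGroup.mk' (F 1))) =
        ((Subgroup.normalClosure (D : Set G)).map (QuotientGroup.mk' N)) := by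
      change (N ⊔ M).map (QuotientGroup.mk' N) = M.map (QuotientGroup.mk' N)
      rw [Subgroup.map_sup, (Subgroup.map_eq_bot_iff _).mpr (QuotientGroup.ker_mk' N).ge,
        bot_sup_eq]
    change GoodSections p n m ((F 2).map (QuotientGroup.mk' (F 1)))
    intro K S _ _ f hf _ hp
    exact Or.inl (cls_of_compositionFactors _ le_rfl (h1 ▸ h) K S f hf hp)
  · refine ⟨le_top, Or.inl ?_⟩
    intro x hx _ y _
    exact comm_mem (hDM hx)

end Vale.Agent.P180.H768.Gd
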