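import Vale.Agent.P180.H768.Defect

/-!
P180, normal series: minimal normal subgroups of a quotient, with a prescribed property of the
simple factors.
-/

namespace Vale.Agent.P180.H768.Gd

open Vale.Agent.P180

open scoped Nat

theorem group_theory' {p : ℕ} [Fact p.Prime] {G : Type} [Group G] [Finite G]
    (C M : Subgroup G) [C.Normal] [M.Normal] (Q : Subgroup G → Prop)
    (hM : ∀ S ≤ M, IsSimpleGroup S → p ∣ Nat.card S → Q S)
    (hC : ∀ X : Subgroup G, X.Normal → X ≤ C → X ≠ ⊥ → ¬ IsPGroup p X ∧ p ∣ Nat.card X ∧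
      X ⊓ M ≠ ⊥) :
    ∃ 𝒮 : Set (Subgroup G),
      (∀ S ∈ 𝒮, S ≤ C ∧ S ≠ ⊥ ∧ Q S ∧ IsSimpleGroup S ∧
        ¬ (∀ x ∈ S, ∀ y ∈ S, x * y = y * x)) ∧
      (∀ S ∈ 𝒮, ∀ S' ∈ 𝒮, S ≠ S' → ∀ x ∈ S, ∀ y ∈ S', x * y = y * x) ∧
      (∀ S ∈ 𝒮, ∀ g : G, S.map (MulAut.conj g).toMonoidHom ∈ 𝒮) ∧
      (∀ c ∈ C, (∀ S ∈ 𝒮, ∀ x ∈ S, c * x = x * c) → c = 1) := by
  have hCn : C.Normal := inferInstance
  have key : ∀ X S : Subgroup G, Min1 C X → Min2 X S →
      S ≤ C ∧ S ≠ ⊥ ∧ Q S ∧ IsSimpleGroup S ∧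
        ¬ (∀ x ∈ S, ∀ y ∈ S, x * y = y * x) := by
    intro X S hX hS
    obtain ⟨h1, h2, h3⟩ := hC X hX.normal hX.le hX.ne_bot
    have hsimple := min2_isSimple hX hS
    refine ⟨hS.le.trans hX.le, hS.ne_bot, ?_, hsimple, min2_nonabelian hX hS h1 h2⟩
    have hXn := hX.normal
    have hXM : X ⊓ M = X := hX.min _ inferInstance inf_le_left h3
    have hSM : S ≤ M := hS.le.trans (by rw [← hXM]; exact inf_le_right)
    exact hM S hSM hsimple (min2_dvd hX hS h2)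
  refine ⟨{S | ∃ X, Min1 C X ∧ Min2 X S}, ?_, ?_, ?_, ?_⟩
  · rintro S ⟨X, hX, hS⟩
    exact key X S hX hS
  · rintro S ⟨X, hX, hS⟩ S' ⟨X', hX', hS'⟩ hne
    exact min2_commute hX hS hX' hS' hne
  · rintro S ⟨X, hX, hS⟩ g
    exact ⟨X, hX, hS.conj hX g⟩
  · intro c hc hcS
    by_contra hc1
    let A : Subgroup G :=
      { carrier := {c | c ∈ C ∧ ∀ X S : Subgroup G, Min1 C X → Min2 X S →
          ∀ x ∈ S, c * x = x * c}
        one_mem' := ⟨C.one_mem, fun _ _ _ _ x _ => by rw [one_mul, mul_one]⟩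
        mul_mem' := by
          rintro a b ⟨ha, ha'⟩ ⟨hb, hb'⟩
          refine ⟨C.mul_mem ha hb, fun X S hX hS x hx => ?_⟩
          rw [mul_assoc, hb' X S hX hS x hx, ← mul_assoc, ha' X S hX hS x hx, mul_assoc]
        inv_mem' := by
          rintro a ⟨ha, ha'⟩
          refine ⟨C.inv_mem ha, fun X S hX hS x hx => ?_⟩
          have := ha' X S hX hS x hx
          rw [inv_mul_eq_iff_eq_mul, ← mul_assoc, this, mul_assoc, mul_inv_cancel, mul_one] }
    have hA : A.Normal := by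
      constructor
      rintro a ⟨ha, ha'⟩ g
      refine ⟨hCn.conj_mem a ha g, fun X S hX hS x hx => ?_⟩
      have h1 := ha' X _ hX (hS.conj hX g⁻¹) (g⁻¹ * x * g) (by
        rw [mem_map_conj]
        simpa [mul_assoc] using hx)
      calc g * a * g⁻¹ * x = g * (a * (g⁻¹ * x * g)) * g⁻¹ := by group
        _ = g * (g⁻¹ * x * g * a) * g⁻¹ := by rw [h1]
        _ = x * (g * a * g⁻¹) := by group
    have hcA : c ∈ A := ⟨hc, fun X S hX hS x hx => hcS S ⟨X, hX, hS⟩ x hx⟩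
    have hA0 : A ≠ ⊥ := by
      intro h0
      rw [h0, Subgroup.mem_bot] at hcA
      exact hc1 hcA
    obtain ⟨X, hXA, hX⟩ := exists_min1 (C := C) hA (fun a ha => ha.1) hA0
    obtain ⟨S, hS⟩ := exists_min2 hX.ne_bot
    exact (key X S hX hS).2.2.2.2 fun x hx y hy => (hXA (hS.le hx)).2 X S hX hS y hy

theorem group_theory_W' {p : ℕ} [Fact p.Prime] {G : Type} [Group G] [Finite G]
    (C W M : Subgroup G) [C.Normal] [W.Normal] [M.Normal] (Q : Subgroup (G ⧸ W) → Prop)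
    (hM : ∀ S ≤ M.map (QuotientGroup.mk' W), IsSimpleGroup S → p ∣ Nat.card S → Q S)
    (hWC : W ≤ C)
    (hcent : ∀ w ∈ W, ∀ c ∈ C, w * c = c * w)
    (hC : ∀ X : Subgroup G, X.Normal → W ≤ X → X ≤ C → X ≠ W →
      ¬ (∀ x ∈ X, ∃ n : ℕ, x ^ p ^ n ∈ W) ∧ p ∣ W.relIndex X ∧ ¬ X ⊓ M ≤ W) :
    ∃ 𝒮 : Set (Subgroup G),
      (∀ S ∈ 𝒮, W ≤ S ∧ S ≤ C ∧ S ≠ W ∧ (∀ x ∈ S, (∀ y ∈ S, x * y = y * x) → x ∈ W) ∧
        Q (S.map (QuotientGroup.mk' W))) ∧
      (∀ S ∈ 𝒮, ∀ S' ∈ 𝒮, S ≠ S' → ∀ x ∈ S, ∀ y ∈ S', x * y = y * x) ∧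
      (∀ S ∈ 𝒮, ∀ g : G, S.map (MulAut.conj g).toMonoidHom ∈ 𝒮) ∧
      ∀ m : ℕ, (∀ S ∈ 𝒮, Nat.card (S.map (QuotientGroup.mk' W)) ≤ m) →
        W.relIndex C ≤ (Nat.card 𝒮 * m)! := by
  let π := QuotientGroup.mk' W
  have hπ : Function.Surjective π := QuotientGroup.mk'_surjective W
  have hker : π.ker = W := QuotientGroup.ker_mk' W
  have hπW : ∀ x, π x = 1 ↔ x ∈ W := fun x => QuotientGroup.eq_one_iff x
  have hCn : (C.map π).Normal := Subgroup.Normal.map inferInstance π hπ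
  have hcm : (C.map π).comap π = C := by
    rw [Subgroup.comap_map_eq, hker, sup_eq_left.mpr hWC]
  have hmc : ∀ X : Subgroup (G ⧸ W), (X.comap π).map π = X :=
    fun X => Subgroup.map_comap_eq_self_of_surjective hπ X
  have hWle : ∀ X : Subgroup (G ⧸ W), W ≤ X.comap π := by
    intro X x hx
    rw [Subgroup.mem_comap, (hπW x).mpr hx]
    exact X.one_mem
  have hneW : ∀ X : Subgroup (G ⧸ W), X ≠ ⊥ → X.comap π ≠ W := by
    intro X hX h
    apply hX
    rw [← hmc X, h, Subgroup.map_eq_bot_iff, hker]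
  have hMn : (M.map π).Normal := Subgroup.Normal.map inferInstance π hπ
  obtain ⟨𝒮, h1, h2, h3, h4⟩ := group_theory' (C.map π) (M.map π) Q hM (by
    intro X hX hXC hX0
    have hX' : X.comap π ≤ C := by
      rw [← hcm]; exact Subgroup.comap_mono hXC
    obtain ⟨h5, h6, h7⟩ := hC (X.comap π) (hX.comap π) (hWle X) hX' (hneW X hX0)
    rw [relIndex_eq_card_map, hmc X] at h6
    refine ⟨fun h8 => h5 ?_, h6, fun h8 => h7 ?_⟩
    · intro x hx
      obtain ⟨n, hn⟩ := h8 ⟨π x, hx⟩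
      refine ⟨n, ?_⟩
      rw [← hπW, map_pow]
      exact congrArg Subtype.val hn
    · intro x hx
      obtain ⟨hx1, hx2⟩ := Subgroup.mem_inf.mp hx
      rw [← hπW, ← Subgroup.mem_bot, ← h8]
      exact Subgroup.mem_inf.mpr ⟨hx1, Subgroup.mem_map_of_mem π hx2⟩)
  refine ⟨(fun X => X.comap π) '' 𝒮, ?_, ?_, ?_, ?_⟩
  · rintro _ ⟨S, hS, rfl⟩
    obtain ⟨hSC, hS0, hSm, hSs, hSn⟩ := h1 S hS
    refine ⟨hWle S, ?_, hneW S hS0, ?_, ?_⟩
    · change S.comap π ≤ C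
      rw [← hcm]; exact Subgroup.comap_mono hSC
    · intro x hx hc
      rw [← hπW]
      apply center_trivial hSs hSn hx
      intro y hy
      obtain ⟨y', rfl⟩ := hπ y
      rw [← map_mul, hc y' hy, map_mul]
    · change Q ((S.comap π).map π)
      rw [hmc S]
      exact hSm
  · rintro _ ⟨S, hS, rfl⟩ _ ⟨S', hS', rfl⟩ hne x hx y hy
    have hne' : S ≠ S' := fun h => hne (by rw [h])
    obtain ⟨hSC, hS0, hSm, hSs, hSn⟩ := h1 S hS
    have hSC' : S.comap π ≤ C := by rw [← hcm]; exact Subgroup.comap_mono hSC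
    obtain ⟨hTC, _, _, _, _⟩ := h1 S' hS'
    have hTC' : S'.comap π ≤ C := by rw [← hcm]; exact Subgroup.comap_mono hTC
    have hyC : y ∈ C := hTC' hy
    have hcW : ∀ s ∈ S.comap π, s * y * s⁻¹ * y⁻¹ ∈ W := by
      intro s hs
      rw [← hπW, map_mul, map_mul, map_mul, h2 S hS S' hS' hne' _ hs _ hy, map_inv, map_inv]
      group
    let c : (S.comap π) →* G :=
      { toFun := fun s => s * y * (s : G)⁻¹ * y⁻¹
        map_one' := by simp
        map_mul' := by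
          intro s t
          change (s : G) * t * y * ((s : G) * t)⁻¹ * y⁻¹ =
            (s : G) * y * (s : G)⁻¹ * y⁻¹ * ((t : G) * y * (t : G)⁻¹ * y⁻¹)
          have h5 := hcent _ (hcW t t.2) _ (hSC' s.2)
          have h6 := hcent _ (hcW t t.2) ((s : G) * y * (s : G)⁻¹ * y⁻¹) (hWC (hcW s s.2))
          calc (s : G) * t * y * ((s : G) * t)⁻¹ * y⁻¹
              = s * ((t : G) * y * (t : G)⁻¹ * y⁻¹) * (y * (s : G)⁻¹ * y⁻¹) := by group
            _ = ((t : G) * y * (t : G)⁻¹ * y⁻¹) * s * (y * (s : G)⁻¹ * y⁻¹) := by rw [← h5]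
            _ = ((t : G) * y * (t : G)⁻¹ * y⁻¹) * ((s : G) * y * (s : G)⁻¹ * y⁻¹) := by group
            _ = _ := h6 }
    have hcomm : ∀ s t : S.comap π, c (s * t) = c (t * s) := by
      intro s t
      rw [map_mul, map_mul]
      exact hcent _ (hcW s s.2) _ (hWC (hcW t t.2))
    let πS : (S.comap π) →* S :=
      { toFun := fun s => ⟨π s, s.2⟩
        map_one' := Subtype.ext (map_one π)
        map_mul' := fun s t => Subtype.ext (map_mul π (s : G) (t : G)) }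
    have hπS : Function.Surjective πS := by
      rintro ⟨s, hs⟩
      obtain ⟨s', rfl⟩ := hπ s
      exact ⟨⟨s', hs⟩, rfl⟩
    have hKn : (c.ker.map πS).Normal := Subgroup.Normal.map inferInstance πS hπS
    have hgoal : c ⟨x, hx⟩ = 1 → x * y = y * x := by
      intro h
      have h' : x * y * x⁻¹ * y⁻¹ = 1 := h
      rwa [mul_inv_eq_one, mul_inv_eq_iff_eq_mul] at h'
    apply hgoal
    rcases hSs.eq_bot_or_eq_top_of_normal _ hKn with h | h
    · exfalso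
      apply hSn
      intro u hu v hv
      obtain ⟨u', rfl⟩ := hπ u
      obtain ⟨v', rfl⟩ := hπ v
      let s : S.comap π := ⟨u', hu⟩
      let t : S.comap π := ⟨v', hv⟩
      have h5 : s * t * (t * s)⁻¹ ∈ c.ker := by
        rw [MonoidHom.mem_ker, map_mul, map_inv, hcomm s t, mul_inv_cancel]
      have h6 : πS (s * t * (t * s)⁻¹) ∈ c.ker.map πS := ⟨_, h5, rfl⟩
      rw [h, Subgroup.mem_bot, map_mul, map_inv, mul_inv_eq_one] at h6
      have h7 := congrArg Subtype.val h6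
      have h8 : π (u' * v') = π (v' * u') := h7
      rwa [map_mul, map_mul] at h8
    · have h5 : πS ⟨x, hx⟩ ∈ c.ker.map πS := by rw [h]; exact Subgroup.mem_top _
      obtain ⟨z, hz, hzx⟩ := h5
      have h6 : π (z : G) = π x := congrArg Subtype.val hzx
      have h7 : (z : G)⁻¹ * x ∈ W := by
        rw [← hπW, map_mul, map_inv, h6, inv_mul_cancel]
      have h8 : (⟨x, hx⟩ : S.comap π) = z * ⟨(z : G)⁻¹ * x, hWle S h7⟩ := by
        apply Subtype.ext
        change x = z * ((z : G)⁻¹ * x)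
        rw [mul_inv_cancel_left]
      rw [h8, map_mul, show c z = 1 from hz, one_mul]
      change (z : G)⁻¹ * x * y * ((z : G)⁻¹ * x)⁻¹ * y⁻¹ = 1
      rw [mul_inv_eq_one, mul_inv_eq_iff_eq_mul]
      exact hcent _ h7 y hyC
  · rintro _ ⟨S, hS, rfl⟩ g
    refine ⟨_, h3 S hS (π g), ?_⟩
    ext x
    rw [Subgroup.mem_comap, mem_map_conj, mem_map_conj, Subgroup.mem_comap, map_mul, map_mul,
      map_inv]
  · intro m hm
    rw [relIndex_eq_card_map, Nat.card_image_of_injective (by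
      intro X Y hXY
      have hXY' : X.comap π = Y.comap π := hXY
      rw [← hmc X, hXY', hmc])]
    refine card_le_factorial m (C.map π) 𝒮 (fun S hS => ?_) h3 h4
    have h5 := hm _ ⟨S, hS, rfl⟩
    change Nat.card ((S.comap π).map π) ≤ m at h5
    rwa [hmc S] at h5

end Vale.Agent.P180.H768.Gd
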