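import Vale.Agent.P180.H768.BrauerFowler

/-!
Groups of local characteristic `p`: centralisers of `p`-elements are bounded in terms of the
Sylow `p`-subgroups; for `p = 2` simple groups of local characteristic `2` are bounded.
-/

namespace Vale.Agent.P180.H768.BF

open Vale.Agent.P180

open scoped Nat

section Local

variable {S : Type} [Group S] [Finite S]

theorem card_normalizer_le (Q : Subgroup S) :
    Nat.card (Subgroup.normalizer (Q : Set S)) ≤
      Nat.card (Subgroup.centralizer (Q : Set S)) * (Nat.card Q)! := by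
  have h1 := Subgroup.card_mul_index Q.normalizerMonoidHom.ker
  rw [← h1]
  refine Nat.mul_le_mul ?_ ?_
  · rw [Subgroup.normalizerMonoidHom_ker]
    exact Nat.card_le_card_of_injective
      (fun x : ((Subgroup.centralizer (Q : Set S)).subgroupOf
        (Subgroup.normalizer (Q : Set S))) => (⟨((x : Subgroup.normalizer (Q : Set S)) : S), x.2⟩ :
          Subgroup.centralizer (Q : Set S)))
      (fun x y hxy => Subtype.ext (Subtype.ext
        (congrArg (fun w : Subgroup.centralizer (Q : Set S) => (w : S)) hxy)))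
  · rw [Subgroup.index_ker]
    calc Nat.card Q.normalizerMonoidHom.range ≤ Nat.card (MulAut Q) :=
          Nat.card_le_card_of_injective _ Subtype.val_injective
      _ ≤ Nat.card (Equiv.Perm Q) := Nat.card_le_card_of_injective
          (fun f : MulAut Q => f.toEquiv) (fun _ _ h => MulEquiv.toEquiv_injective h)
      _ = (Nat.card Q)! := Nat.card_perm

theorem exists_radical {p : ℕ} {t : S} (htp : ∃ j : ℕ, t ^ p ^ j = 1) :
    ∃ Q : Subgroup S, IsPGroup p Q ∧ t ∈ Q ∧
      Subgroup.centralizer {t} ≤ Subgroup.normalizer (Q : Set S) ∧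
      ∀ P : Subgroup S, IsPGroup p P → P ≤ Subgroup.normalizer (Q : Set S) →
        (∀ g ∈ Subgroup.normalizer (Q : Set S), ∀ x ∈ P, g * x * g⁻¹ ∈ P) → P ≤ Q := by
  let F : Subgroup S → Prop := fun Q => IsPGroup p Q ∧ t ∈ Q ∧
    Subgroup.centralizer {t} ≤ Subgroup.normalizer (Q : Set S)
  have hF : F (Subgroup.zpowers t) := by
    refine ⟨?_, Subgroup.mem_zpowers t, ?_⟩
    · obtain ⟨j, hj⟩ := htp
      rintro ⟨x, hx⟩
      obtain ⟨i, rfl⟩ := Subgroup.mem_zpowers_iff.mp hx
      refine ⟨j, Subtype.ext ?_⟩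
      change (t ^ i) ^ p ^ j = 1
      rw [← zpow_natCast, ← zpow_mul, mul_comm, zpow_mul, zpow_natCast, hj, one_zpow]
    · intro g hg
      rw [Subgroup.mem_centralizer_singleton_iff] at hg
      have h1 : ∀ i : ℤ, g * t ^ i * g⁻¹ = t ^ i := by
        intro i
        have h2 : Commute g (t ^ i) := (show Commute g t from hg).zpow_right i
        rw [h2.eq, mul_inv_cancel_right]
      rw [Subgroup.mem_normalizer_iff]
      intro x
      constructor
      · intro hx
        obtain ⟨i, rfl⟩ := Subgroup.mem_zpowers_iff.mp hx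
        rw [h1]
        exact hx
      · intro hx
        obtain ⟨i, hi⟩ := Subgroup.mem_zpowers_iff.mp hx
        have h2 : x = g⁻¹ * t ^ i * g := by rw [hi]; group
        have h3 : g⁻¹ * t ^ i * g = t ^ i := by
          conv_lhs => rw [← h1 i]
          group
        rw [h2, h3]
        exact Subgroup.zpow_mem _ (Subgroup.mem_zpowers t) i
  obtain ⟨Q, hQ⟩ := exists_maximal_of_wellFoundedGT F ⟨_, hF⟩
  obtain ⟨⟨hQp, htQ, hQC⟩, hmax⟩ := hQ
  refine ⟨Q, hQp, htQ, hQC, ?_⟩
  intro P hP hPN hPst
  have h1 : F (P ⊔ Q) := by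
    refine ⟨IsPGroup.to_sup_of_normal_right' hP hQp hPN, Subgroup.mem_sup_right htQ, ?_⟩
    intro g hg
    have hgN := hQC hg
    have hginv : g⁻¹ ∈ Subgroup.normalizer (Q : Set S) := Subgroup.inv_mem _ hgN
    have hQst : ∀ h ∈ Subgroup.normalizer (Q : Set S), ∀ x ∈ Q, h * x * h⁻¹ ∈ Q :=
      fun h hh x hx => (Subgroup.mem_normalizer_iff.mp hh x).mp hx
    have key : ∀ h ∈ Subgroup.normalizer (Q : Set S), ∀ x ∈ P ⊔ Q, h * x * h⁻¹ ∈ P ⊔ Q := by
      intro h hh x hx
      have h2 : P ⊔ Q ≤ (P ⊔ Q).comap (MulAut.conj h).toMonoidHom :=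
        sup_le (fun y hy => Subgroup.mem_sup_left (hPst h hh y hy))
          (fun y hy => Subgroup.mem_sup_right (hQst h hh y hy))
      exact h2 hx
    rw [Subgroup.mem_normalizer_iff]
    intro x
    constructor
    · exact key g hgN x
    · intro hx
      have h3 := key g⁻¹ hginv _ hx
      rw [inv_inv] at h3
      have h4 : g⁻¹ * (g * x * g⁻¹) * g = x := by group
      rwa [h4] at h3
  exact le_sup_left.trans (hmax h1 le_sup_right)

theorem card_centralizer_le {p n : ℕ} (hS : IsLocalChar p n S)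
    (hn : ∀ P : Subgroup S, IsPGroup p P → Nat.card P ≤ n) {t : S} (ht : t ≠ 1)
    (htp : ∃ j : ℕ, t ^ p ^ j = 1) :
    Nat.card (Subgroup.centralizer {t}) ≤ n * n ! := by
  obtain ⟨Q, hQp, htQ, hQC, hQ⟩ := exists_radical htp
  have hQ0 : Q ≠ ⊥ := by
    rintro rfl
    exact ht (Subgroup.mem_bot.mp htQ)
  have h2 := hn Q hQp
  have h1 := hS Q hQ0 hQp h2 hQ
  calc Nat.card (Subgroup.centralizer {t})
      ≤ Nat.card (Subgroup.normalizer (Q : Set S)) :=
        Nat.card_le_card_of_injective _ (Subgroup.inclusion_injective hQC)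
    _ ≤ Nat.card (Subgroup.centralizer (Q : Set S)) * (Nat.card Q)! := card_normalizer_le Q
    _ ≤ n * n ! := Nat.mul_le_mul
        ((Nat.card_le_card_of_injective _ (Subgroup.inclusion_injective h1)).trans h2)
        (Nat.factorial_le h2)

/-- A bound for the simple groups of local characteristic `2` with Sylow `2`-subgroups of order at
most `n`. -/
def bfBound (n : ℕ) : ℕ := max 2 (2 * (n * n !) ^ 2)!

theorem card_le_of_charType_two [IsSimpleGroup S] {n : ℕ} (h2 : 2 ∣ Nat.card S)
    (hS : IsLocalChar 2 n S) (hn : ∀ P : Subgroup S, IsPGroup 2 P → Nat.card P ≤ n) :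
    Nat.card S ≤ bfBound n := by
  by_cases hab : ∀ x y : S, x * y = y * x
  · let _ : CommGroup S := { (inferInstance : Group S) with mul_comm := hab }
    have h4 : (Nat.card S).Prime := IsSimpleGroup.prime_card
    have h5 := (Nat.prime_dvd_prime_iff_eq Nat.prime_two h4).mp h2
    rw [← h5]
    exact le_max_left _ _
  · have _ : Fact (Nat.Prime 2) := ⟨Nat.prime_two⟩
    obtain ⟨t, ht⟩ := exists_prime_orderOf_dvd_card' 2 h2
    have ht2 : t ^ 2 = 1 := by rw [← ht]; exact pow_orderOf_eq_one t
    have ht1 : t ≠ 1 := by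
      rintro rfl
      rw [orderOf_one] at ht
      omega
    have h3 := card_centralizer_le hS hn ht1 ⟨1, by rw [pow_one]; exact ht2⟩
    refine (brauer_fowler hab (t := t) (by rw [← sq]; exact ht2)).trans ?_
    refine le_trans (Nat.factorial_le ?_) (le_max_right _ _)
    exact Nat.mul_le_mul_left 2 (Nat.pow_le_pow_left h3 2)

end Local

end Vale.Agent.P180.H768.BF
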