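import Vale.Agent.P180.H768.Step

/-!
P180, normal series: the induction.
-/

namespace Vale.Agent.P180.H768

open Vale.Agent.P180

open scoped Nat

universe u

/-- the bound of one step -/
def bd (n m : ℕ) : ℕ := n ! * (n * m)! * n

/-- the bound -/
def FF : ℕ → ℕ → ℕ → ℕ
  | 0, n, m => (bd n m) ^ 2
  | j + 1, n, m => FF j n (max m ((bd n m)!))

variable {k : Type u} [Field k] [IsAlgClosed k] {p n : ℕ} [Fact p.Prime] [CharP k p]

theorem absorb {m j β : ℕ} (hpm : p ≤ m) {G : Type} [Group G] [Finite G] {Z A C B D : Subgroup G}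
    [hAn : A.Normal] [hCn : C.Normal] [hBn : B.Normal] (hCB : C ≤ B)
    (hlay : ∀ x ∈ D, x ∈ C → ∀ y ∈ C, x * y * x⁻¹ * y⁻¹ ∈ A) (hRB : RCls p m C B)
    (hrest : Lay p m D j B) (hZ : ∀ z ∈ Z, ∀ g, z * g = g * z)
    (hβ : Z.relIndex A ≤ β) (hD : IsPGroup p D) {a b : MonoidAlgebra k G} (hb : IsBlock b)
    (ha : a ∈ Fix (cj k G) D) (hba : b = tr (cj k G) D ⊤ a) (hDn : Nat.card D ≤ n)
    (hST : ∀ N : Subgroup G, N.Normal → ∀ e : MonoidAlgebra k G, IsBlockOf N e → b * e ≠ 0 →
      ∀ g, cj k G g e = e) :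
    ∃ (H : Type) (_ : Group H) (_ : Finite H) (Z' A' D' : Subgroup H) (_ : A'.Normal)
      (a' c : MonoidAlgebra k H) (hc : IsBlock c), IsPGroup p D' ∧ Cls p (max m (β !)) A' ∧
      Lay p (max m (β !)) D' j A' ∧ Z' ≤ A' ∧ (∀ z ∈ Z', ∀ g, z * g = g * z) ∧
      ¬ p ∣ Nat.card Z' ∧ a' ∈ Fix (cj k H) D' ∧ c = tr (cj k H) D' ⊤ a' ∧ Nat.card D' ≤ n ∧
      IsMoritaEquivalent k hb.Alg hc.Alg := by
  have hZn : Z.Normal := by
    constructor
    intro z hz g
    rw [← hZ z hz g, mul_inv_cancel_right]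
    exact hz
  have hbB := isBlock_iff.mp hb
  obtain ⟨N, hNdef⟩ : ∃ N, N = NN A C := ⟨_, rfl⟩
  have hNn : N.Normal := by rw [hNdef]; infer_instance
  have hNB : N ≤ B := by
    rw [hNdef]
    exact ((NN_le_XX A C).trans inf_le_left).trans hCB
  have hND : ∀ x ∈ D, x ∈ N → ∀ y ∈ N, x * y = y * x := by
    rw [hNdef]
    exact central_NN hlay
  have hRN : RCls p (max m (β !)) N B := by
    rw [hNdef]
    exact RCls_NN hpm hZ hβ hRB
  obtain ⟨e, he, hbe⟩ := exists_isPrimIn (ZAlg k N) ZAlg_comm hb.ne_zero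
  have hcomm : e * b = b * e := commute_of_mem (SubAlg_top e) hbB.mem.2
  obtain ⟨x, z, hz, hzF, hez⟩ := covering he hb.idem (by rwa [hcomm]) ha hba
  have hYn : (pZ p N).Normal := pZ_normal p hNn
  have hRY : N ⊓ conjS x D ≤ pZ p N := by
    intro w hw
    obtain ⟨hwN, hwD⟩ := Subgroup.mem_inf.mp hw
    rw [mem_conjS] at hwD
    refine ⟨hwN, fun n hn => ?_, ?_⟩
    · have h1 : x⁻¹ * n * x ∈ N := by
        have := hNn.conj_mem n hn x⁻¹
        simpa using this
      have h1' : x⁻¹ * w * x ∈ N := by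
        have := hNn.conj_mem w hwN x⁻¹
        simpa using this
      have h2 := hND _ hwD h1' _ h1
      calc w * n = x * ((x⁻¹ * w * x) * (x⁻¹ * n * x)) * x⁻¹ := by group
        _ = x * ((x⁻¹ * n * x) * (x⁻¹ * w * x)) * x⁻¹ := by rw [h2]
        _ = n * w := by group
    · obtain ⟨m, hm⟩ := hD ⟨_, hwD⟩
      refine ⟨m, ?_⟩
      have h3 : (x⁻¹ * w * x) ^ (p ^ m) = 1 := congrArg Subtype.val hm
      have h4 : (x⁻¹ * w * (x⁻¹)⁻¹) ^ (p ^ m) = 1 := by rwa [inv_inv]
      rw [conj_pow] at h4
      calc w ^ (p ^ m) = x * (x⁻¹ * w ^ (p ^ m) * (x⁻¹)⁻¹) * x⁻¹ := by group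
        _ = 1 := by rw [h4, mul_one, mul_inv_cancel]
  have hYN : pZ p N ≤ N := fun w hw => hw.1
  have hYc : ∀ y ∈ pZ p N, ∀ x ∈ N, y * x = x * y := fun y hy => hy.2.1
  have hYp : IsPGroup p (pZ p N) := by
    rintro ⟨w, hw⟩
    obtain ⟨m, hm⟩ := hw.2.2
    exact ⟨m, Subtype.ext hm⟩
  have hYD : pZ p N ≤ D := op_le p hYp hb.idem hb.ne_zero ha hba
  obtain ⟨H, iH, fH, Z', π, c, hc, hZ', hpZ', hZπ, -, hπ, hker, _, hMo, D', a', hD',
    ha', hca', hD'M⟩ := KP.main' hYp hYN hYc he (hST N hNn e he hbe) hb hbe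
      ⟨tr (cj k G) (N ⊓ conjS x D) (pZ p N) z, KP.tr_mem_SubAlg hz, tr_mem_Fix hzF, by
        rw [tr_tr hzF hRY hYN]
        exact hez⟩ ha hba hYD
  obtain ⟨P, hPD, hP, a'', ha'', hca''⟩ := exists_sylow_trace (p := p) ha' hca'
  have hpm' : p ≤ max m (β !) := hpm.trans (le_max_left _ _)
  have hBn' : (B.map (QuotientGroup.mk' N)).Normal :=
    Subgroup.Normal.map hBn _ (QuotientGroup.mk'_surjective N)
  refine ⟨H, iH, fH, Z', pull N π B, P, inferInstance, a'', c, hc, hP,
    cls_comap hpm' hYp (hRN.quot hNB) hZ' hZπ hker,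
    ((hrest.pull π hD'M hNB).mono (le_max_left _ _)).mono_D hPD, ?_, hZ', hpZ', ha'', hca'',
    ((Nat.card_le_card_of_injective _ (Subgroup.inclusion_injective hPD)).trans hD').trans hDn,
    hMo⟩
  refine hZπ.trans ?_
  intro h hh
  exact mem_pull.mpr ⟨1, B.one_mem, (map_one _).trans (MonoidHom.mem_ker.mp hh).symm⟩

theorem main (j : ℕ) : ∀ (m : ℕ), p ≤ m → ∀ (i : ℕ),
    ∀ (G : Type) [Group G] [Finite G] (Z A D : Subgroup G) [A.Normal] (a b : MonoidAlgebra k G),
      IsPGroup p D → Cls p m A → Lay p m D j A → Z ≤ A → (∀ z ∈ Z, ∀ g, z * g = g * z) →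
      ¬ p ∣ Nat.card Z → ∀ hb : IsBlock b,
      a ∈ Fix (cj k G) D → b = tr (cj k G) D ⊤ a → Nat.card D ≤ n → Z.index ≤ i →
      ∃ (H : Type) (_ : Group H) (_ : Finite H) (c : MonoidAlgebra k H) (hc : IsBlock c),
        Nat.card H ≤ FF j n m ∧ IsMoritaEquivalent k hb.Alg hc.Alg := by
  induction j with
  | zero =>
    intro m hpm i G _ _ Z A D _ a b _ hA hlay _ _ _ hb ha hba hDn _
    have h1 : A = ⊤ := hlay
    subst h1
    exact T25 hpm hA (le_top : D ≤ ⊤) hb ha hba hDn
  | succ j ihj =>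
    intro m hpm i
    induction i with
    | zero =>
      intro G _ _ Z A D _ a b _ _ _ _ _ _ _ _ _ _ hi
      exact absurd (Nat.le_zero.mp hi) Z.index_ne_zero_of_finite
    | succ i ih =>
      intro G _ _ Z A D hAn a b hD hA hlay hZA hZ hpZ hb ha hba hDn hi
      by_cases hST : ∀ N : Subgroup G, N.Normal → ∀ e : MonoidAlgebra k G, IsBlockOf N e →
        b * e ≠ 0 → ∀ g, cj k G g e = e
      swap
      · push Not at hST
        obtain ⟨N, hN, e, he, hbe, g, hg⟩ := hST
        obtain ⟨b', hb', _, hMo, x, a', ha', hb'a'⟩ := fong_reynolds he hb hbe ha hba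
        have hZT : Z ≤ stabE e := by
          intro z hz
          rw [mem_stabE]
          exact cj_eq_self_of_commute he.mem.1 fun a _ => hZ z hz a
        have hT : (stabE e).index ≠ 1 := by
          rw [Ne, Subgroup.index_eq_one]
          intro h
          apply hg
          rw [← mem_stabE, h]
          exact Subgroup.mem_top g
        have hT0 : (stabE e).index ≠ 0 := Subgroup.index_ne_zero_of_finite
        have hidx : (Z.subgroupOf (stabE e)).index ≤ i := by
          have h1 : Z.relIndex (stabE e) * (stabE e).index = Z.index :=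
            Subgroup.relIndex_mul_index hZT
          have h2 : (Z.subgroupOf (stabE e)).index ≠ 0 := Subgroup.index_ne_zero_of_finite
          have h3 : Z.relIndex (stabE e) * 2 ≤ Z.relIndex (stabE e) * (stabE e).index :=
            Nat.mul_le_mul_left _ (by omega)
          change Z.relIndex (stabE e) ≠ 0 at h2
          change Z.relIndex (stabE e) ≤ i
          omega
        have hMT : (A.subgroupOf (stabE e)).Normal := inferInstance
        have hMcls : Cls p m (A.subgroupOf (stabE e)) := by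
          let f : (A.subgroupOf (stabE e)) →* A :=
            { toFun := fun x => ⟨((x : stabE e) : G), x.2⟩
              map_one' := rfl
              map_mul' := fun _ _ => rfl }
          refine hA.of_injective f ?_
          intro x y hxy
          apply Subtype.ext
          apply Subtype.ext
          exact congrArg (fun w : A => (w : G)) hxy
        have hDp : IsPGroup p ((conjS x D).subgroupOf (stabE e)) := by
          rintro ⟨⟨w, hwT⟩, hw⟩
          rw [Subgroup.mem_subgroupOf, mem_conjS] at hw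
          obtain ⟨r, hr⟩ := hD ⟨_, hw⟩
          refine ⟨r, Subtype.ext (Subtype.ext ?_)⟩
          have h3 : (x⁻¹ * w * x) ^ (p ^ r) = 1 := congrArg Subtype.val hr
          have h4 : (x⁻¹ * w * (x⁻¹)⁻¹) ^ (p ^ r) = 1 := by rwa [inv_inv]
          rw [conj_pow] at h4
          change w ^ (p ^ r) = 1
          calc w ^ (p ^ r) = x * (x⁻¹ * w ^ (p ^ r) * (x⁻¹)⁻¹) * x⁻¹ := by group
            _ = 1 := by rw [h4, mul_one, mul_inv_cancel]
        obtain ⟨H, iH, fH, c, hc, hH, hM'⟩ := ih (stabE e) (Z.subgroupOf (stabE e))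
          (A.subgroupOf (stabE e)) _ a' b' hDp hMcls (hlay.subgroupOf (stabE e) x hAn)
          (Subgroup.comap_mono hZA)
          (fun z hz g => Subtype.ext (hZ _ hz g))
          (by rwa [Nat.card_congr (Subgroup.subgroupOfEquivOfLe hZT).toEquiv]) hb' ha' hb'a'
          ((card_subgroupOf_conjS_le _ x D).trans hDn) hidx
        exact ⟨H, iH, fH, c, hc, hH, hMo.trans k hM'⟩
      · by_cases hNR : ∀ N Y : Subgroup G, N.Normal → Y.Normal → Z ≤ N → N ≤ A → Y ≤ N →
          IsPGroup p Y → (∀ y ∈ Y, ∀ x ∈ N, y * x = x * y) → ∀ e : MonoidAlgebra k G,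
          IsBlockOf N e → b * e ≠ 0 →
          (∃ z ∈ SubAlg k N, z ∈ Fix (cj k G) Y ∧ e = tr (cj k G) Y N z) →
          Nat.card N = Nat.card Z * Nat.card Y
        swap
        · push Not at hNR
          obtain ⟨N, Y, hN, hYn, hZN, hNA, hYN, hY, hYc, e, he, hbe, hez, hcard⟩ := hNR
          have hYD : Y ≤ D := op_le p hY hb.idem hb.ne_zero ha hba
          obtain ⟨H, iH, fH, Z', π, c, hc, hZ', hpZ', hZπ, hidx', hπ, hker, _, hMo, D', a', hD',
            ha', hca', hD'M⟩ := KP.main' hY hYN hYc he (hST N hN e he hbe) hb hbe hez ha hba hYD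
          have hidx : Z'.index ≤ i := by
            have h1 : Nat.card Z * Nat.card Y ≤ Nat.card N := by
              rw [← card_sup_eq hpZ hY]
              exact Nat.card_le_card_of_injective _
                (Subgroup.inclusion_injective (sup_le hZN hYN))
            have h2 : Nat.card Z * Nat.card Y < Nat.card N :=
              lt_of_le_of_ne h1 (Ne.symm hcard)
            have h3 := Subgroup.card_mul_index N
            have h4 := Subgroup.card_mul_index Z
            have h5 : 0 < N.index := Nat.pos_of_ne_zero Subgroup.index_ne_zero_of_finite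
            have h6 : Nat.card Z * (Nat.card Y * N.index) < Nat.card Z * Z.index := by
              rw [h4, ← h3, ← mul_assoc]
              exact Nat.mul_lt_mul_of_pos_right h2 h5
            have h7 := Nat.lt_of_mul_lt_mul_left h6
            omega
          have hAn' : (A.map (QuotientGroup.mk' N)).Normal :=
            Subgroup.Normal.map hAn _ (QuotientGroup.mk'_surjective N)
          have hMq : Cls p m (A.map (QuotientGroup.mk' N)) :=
            hA.of_surjective ((QuotientGroup.mk' N).subgroupMap A)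
              ((QuotientGroup.mk' N).subgroupMap_surjective A)
          have hMcls : Cls p m (pull N π A) := cls_comap hpm hY hMq hZ' hZπ hker
          have hMn'' : (pull N π A).Normal := inferInstance
          obtain ⟨P, hPD, hP, a'', ha'', hca''⟩ := exists_sylow_trace (p := p) ha' hca'
          obtain ⟨H', iH', fH', c', hc', hH', hM'⟩ := ih H Z' (pull N π A) P a'' c hP hMcls
            ((hlay.pull π hD'M hNA).mono_D hPD) (by
              refine hZπ.trans ?_
              intro h hh
              exact mem_pull.mpr ⟨1, A.one_mem, (map_one _).trans (MonoidHom.mem_ker.mp hh).symm⟩)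
            hZ' hpZ' hc ha'' hca''
            (((Nat.card_le_card_of_injective _ (Subgroup.inclusion_injective hPD)).trans
              hD').trans hDn) hidx
          exact ⟨H', iH', fH', c', hc', hH', hMo.trans k hM'⟩
        · have hbound := caseB_bound hA hZA hZ hpZ hb ha hba hDn hST hNR
          obtain ⟨C, B, hCn, hBn, hAC, hCB, hcen, hR, hrest⟩ := hlay
          obtain ⟨H, iH, fH, Z', A', D', hA'n, a', c, hc, hP, hA', hL, hZA', hZ', hpZ', ha', hca,
            hD'n, hMo⟩ := absorb (n := n) hpm hCB hcen hR hrest hZ hbound hD hb ha hba hDn hST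
          obtain ⟨H', iH', fH', c', hc', hH', hM'⟩ := ihj (max m ((bd n m)!))
            (hpm.trans (le_max_left _ _)) Z'.index H Z' A' D' a' c hP hA' hL hZA' hZ' hpZ' hc
            ha' hca hD'n le_rfl
          exact ⟨H', iH', fH', c', hc', hH', hMo.trans k hM'⟩

end Vale.Agent.P180.H768
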