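import Vale.Agent.P180.H768.Series

/-!
P180, normal series: absorbing a layer in which the defect group is central.
-/

namespace Vale.Agent.P180.H768

open Vale.Agent.P180

open scoped Nat commutatorElement

section Group

set_option linter.unusedSectionVars false

variable {G : Type} [Group G] [Finite G]

/-- A quotient of bounded order. -/
theorem RCls.of_index {p m : ℕ} {A K₀ : Subgroup G} [K₀.Normal] {C : Subgroup G}
    (h : K₀.index ≤ m) (hA : K₀ ⊓ C ≤ A) : RCls p m A C := by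
  intro K S _ _ f hK hf hx hp
  let g : K →* (G ⧸ K₀) := (QuotientGroup.mk' K₀).comp K.subtype
  obtain ⟨f', hf'⟩ := exists_factor g.rangeRestrict g.rangeRestrict_surjective f (by
    intro x h1
    apply hx
    have h2 : QuotientGroup.mk' K₀ (x : G) = 1 := congrArg Subtype.val h1
    exact hA (Subgroup.mem_inf.mpr ⟨(QuotientGroup.eq_one_iff _).mp h2, hK x.2⟩))
  have hs : Function.Surjective f' := by
    intro s
    obtain ⟨x, rfl⟩ := hf s
    exact ⟨_, hf' x⟩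
  calc Nat.card S ≤ Nat.card g.range := Nat.card_le_card_of_surjective f' hs
    _ ≤ Nat.card (G ⧸ K₀) := Nat.card_le_card_of_injective _ Subtype.val_injective
    _ ≤ m := h

/-- The elements acting trivially on `A / Z`. -/
def actTriv (Z A : Subgroup G) [Z.Normal] : Subgroup G :=
  (Subgroup.centralizer ((A.map (QuotientGroup.mk' Z) : Subgroup (G ⧸ Z)) : Set (G ⧸ Z))).comap
    (QuotientGroup.mk' Z)

instance actTriv_normal (Z A : Subgroup G) [Z.Normal] [hA : A.Normal] : (actTriv Z A).Normal := by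
  have h1 : (A.map (QuotientGroup.mk' Z)).Normal :=
    Subgroup.Normal.map hA _ (QuotientGroup.mk'_surjective Z)
  unfold actTriv
  infer_instance

theorem actTriv_index {Z A : Subgroup G} [Z.Normal] [hA : A.Normal] {β : ℕ}
    (h : Z.relIndex A ≤ β) : (actTriv Z A).index ≤ β ! := by
  have h1 : (A.map (QuotientGroup.mk' Z)).Normal :=
    Subgroup.Normal.map hA _ (QuotientGroup.mk'_surjective Z)
  have h2 : (actTriv Z A).index = (Subgroup.centralizer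
      ((A.map (QuotientGroup.mk' Z) : Subgroup (G ⧸ Z)) : Set (G ⧸ Z))).index :=
    Subgroup.index_comap_of_surjective _ (QuotientGroup.mk'_surjective Z)
  rw [h2]
  refine (index_centralizer_le _).trans (Nat.factorial_le ?_)
  rwa [← relIndex_eq_card_map]

theorem actTriv_spec {Z A : Subgroup G} [Z.Normal] {g : G} (hg : g ∈ actTriv Z A) {a : G}
    (ha : a ∈ A) : ∃ z ∈ Z, g * a * g⁻¹ = a * z := by
  have h1 := Subgroup.mem_centralizer_iff.mp (Subgroup.mem_comap.mp hg) _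
    (Subgroup.mem_map_of_mem (QuotientGroup.mk' Z) ha)
  refine ⟨a⁻¹ * (g * a * g⁻¹), ?_, by group⟩
  rw [← QuotientGroup.eq_one_iff]
  change QuotientGroup.mk' Z (a⁻¹ * (g * a * g⁻¹)) = 1
  rw [map_mul, map_mul, map_mul, map_inv, map_inv, ← h1]
  group

/-- `C ∩ C_G(A)`. -/
abbrev XX (A C : Subgroup G) : Subgroup G := C ⊓ Subgroup.centralizer (A : Set G)

theorem RCls_actTriv {p m : ℕ} [Fact p.Prime] (hpm : p ≤ m) {Z A C : Subgroup G} [Z.Normal]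
    [hAn : A.Normal] (hZ : ∀ z ∈ Z, ∀ g, z * g = g * z) :
    RCls p m (XX A C) (actTriv Z A ⊓ C) := by
  refine RCls.of_comm hpm ?_
  intro x hx y hy
  obtain ⟨hx1, hx2⟩ := Subgroup.mem_inf.mp hx
  obtain ⟨hy1, hy2⟩ := Subgroup.mem_inf.mp hy
  refine Subgroup.mem_inf.mpr ⟨C.mul_mem (C.mul_mem (C.mul_mem hx2 hy2) (C.inv_mem hx2))
    (C.inv_mem hy2), ?_⟩
  rw [Subgroup.mem_centralizer_iff]
  intro a' ha'
  have ha : (y * x)⁻¹ * a' * (y * x) ∈ A := by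
    have := hAn.conj_mem _ ha' (y * x)⁻¹
    simpa using this
  set a := (y * x)⁻¹ * a' * (y * x) with hadef
  have ha2 : a' = (y * x) * a * (y * x)⁻¹ := by rw [hadef]; group
  obtain ⟨z, hz, hxz⟩ := actTriv_spec hx1 ha
  obtain ⟨w, hw, hyw⟩ := actTriv_spec hy1 ha
  have e1 : (x * y) * a * (x * y)⁻¹ = a * z * w := by
    calc (x * y) * a * (x * y)⁻¹ = x * (y * a * y⁻¹) * x⁻¹ := by group
      _ = x * (a * w) * x⁻¹ := by rw [hyw]
      _ = x * a * (w * x⁻¹) := by group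
      _ = x * a * (x⁻¹ * w) := by rw [hZ w hw x⁻¹]
      _ = (x * a * x⁻¹) * w := by group
      _ = a * z * w := by rw [hxz]
  have e2 : (y * x) * a * (y * x)⁻¹ = a * z * w := by
    calc (y * x) * a * (y * x)⁻¹ = y * (x * a * x⁻¹) * y⁻¹ := by group
      _ = y * (a * z) * y⁻¹ := by rw [hxz]
      _ = y * a * (z * y⁻¹) := by group
      _ = y * a * (y⁻¹ * z) := by rw [hZ z hz y⁻¹]
      _ = (y * a * y⁻¹) * z := by group
      _ = a * (w * z) := by rw [hyw]; group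
      _ = a * z * w := by rw [hZ w hw z]; group
  have e3 : (x * y) * a * (x * y)⁻¹ = a' := by rw [e1, ← e2, ← ha2]
  have e4 : x * y * x⁻¹ * y⁻¹ * a' = a' * (x * y * x⁻¹ * y⁻¹) := by
    calc x * y * x⁻¹ * y⁻¹ * a' = x * y * (x⁻¹ * y⁻¹ * a') := by group
      _ = x * y * (x⁻¹ * y⁻¹ * ((y * x) * a * (y * x)⁻¹)) := by rw [← ha2]
      _ = (x * y) * a * (x * y)⁻¹ * (x * y * x⁻¹ * y⁻¹) := by group
      _ = a' * (x * y * x⁻¹ * y⁻¹) := by rw [e3]
  exact e4.symm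

/-- The group `[X, X]`, `X = C ∩ C_G(A)`. -/
abbrev NN (A C : Subgroup G) : Subgroup G := ⁅XX A C, XX A C⁆

theorem NN_le_XX (A C : Subgroup G) : NN A C ≤ XX A C := by
  rw [Subgroup.commutator_le]
  intro x hx y hy
  rw [commutatorElement_def]
  exact (XX A C).mul_mem ((XX A C).mul_mem ((XX A C).mul_mem hx hy) ((XX A C).inv_mem hx))
    ((XX A C).inv_mem hy)

theorem RCls_NN {p m : ℕ} [Fact p.Prime] (hpm : p ≤ m) {Z A C B : Subgroup G} [Z.Normal]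
    [A.Normal] [C.Normal] (hZ : ∀ z ∈ Z, ∀ g, z * g = g * z) {β : ℕ}
    (hβ : Z.relIndex A ≤ β) (h : RCls p m C B) : RCls p (max m (β !)) (NN A C) B := by
  have hpm' : p ≤ max m (β !) := hpm.trans (le_max_left _ _)
  have h1 : RCls p (max m (β !)) (NN A C) (XX A C) := by
    refine RCls.of_comm hpm' ?_
    intro x hx y hy
    have := Subgroup.commutator_mem_commutator hx hy
    rwa [commutatorElement_def] at this
  have h2 : RCls p (max m (β !)) (XX A C) (actTriv Z A ⊓ C) := RCls_actTriv hpm' hZ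
  have h3 : RCls p (max m (β !)) (actTriv Z A ⊓ C) C :=
    RCls.of_index (K₀ := actTriv Z A) ((actTriv_index hβ).trans (le_max_right _ _)) le_rfl
  have h4 : RCls p (max m (β !)) C B := h.mono (le_max_left _ _)
  exact ((h1.trans h2).trans h3).trans h4

theorem central_NN {A C D : Subgroup G}
    (hlay : ∀ x ∈ D, x ∈ C → ∀ y ∈ C, x * y * x⁻¹ * y⁻¹ ∈ A) :
    ∀ d ∈ D, d ∈ NN A C → ∀ y ∈ NN A C, d * y = y * d := by
  intro d hd hdN
  have hdX : d ∈ XX A C := NN_le_XX A C hdN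
  have hdC : d ∈ C := (Subgroup.mem_inf.mp hdX).1
  have key : ∀ g ∈ XX A C, ∃ c ∈ A, c ∈ XX A C ∧ d * g * d⁻¹ = c * g := by
    intro g hg
    refine ⟨d * g * d⁻¹ * g⁻¹, hlay d hd hdC g (Subgroup.mem_inf.mp hg).1, ?_, by group⟩
    exact (XX A C).mul_mem ((XX A C).mul_mem ((XX A C).mul_mem hdX hg) ((XX A C).inv_mem hdX))
      ((XX A C).inv_mem hg)
  have hc : ∀ c ∈ A, ∀ g ∈ XX A C, c * g = g * c := fun c hc g hg =>
    Subgroup.mem_centralizer_iff.mp (Subgroup.mem_inf.mp hg).2 c hc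
  have hle : NN A C ≤ Subgroup.centralizer {d} := by
    rw [Subgroup.commutator_le]
    intro g₁ h₁ g₂ h₂
    obtain ⟨c₁, hc₁, hc₁', e₁⟩ := key g₁ h₁
    obtain ⟨c₂, hc₂, hc₂', e₂⟩ := key g₂ h₂
    rw [Subgroup.mem_centralizer_iff]
    intro d' hd'
    rw [Set.mem_singleton_iff.mp hd']
    have a1 : Commute c₁ g₁ := hc c₁ hc₁ g₁ h₁
    have a2 : Commute c₁ g₂ := hc c₁ hc₁ g₂ h₂
    have a3 : Commute c₂ g₁ := hc c₂ hc₂ g₁ h₁
    have a4 : Commute c₂ g₂ := hc c₂ hc₂ g₂ h₂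
    have a5 : Commute c₁ c₂ := hc c₁ hc₁ c₂ hc₂'
    have e3 : d * ⁅g₁, g₂⁆ * d⁻¹ = ⁅g₁, g₂⁆ := by
      calc d * ⁅g₁, g₂⁆ * d⁻¹ = ⁅d * g₁ * d⁻¹, d * g₂ * d⁻¹⁆ := by
            rw [commutatorElement_def, commutatorElement_def]; group
        _ = ⁅c₁ * g₁, c₂ * g₂⁆ := by rw [e₁, e₂]
        _ = (c₁ * g₁) * (c₂ * g₂) * (c₁ * g₁)⁻¹ * (c₂ * g₂)⁻¹ := commutatorElement_def _ _
        _ = (g₁ * c₁) * (g₂ * c₂) * (g₁ * c₁)⁻¹ * (g₂ * c₂)⁻¹ := by rw [a1.eq, a4.eq]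
        _ = g₁ * (c₁ * g₂ * c₂ * c₁⁻¹) * g₁⁻¹ * c₂⁻¹ * g₂⁻¹ := by group
        _ = g₁ * (g₂ * (c₁ * c₂) * c₁⁻¹) * g₁⁻¹ * c₂⁻¹ * g₂⁻¹ := by rw [a2.eq]; group
        _ = g₁ * (g₂ * (c₂ * c₁) * c₁⁻¹) * g₁⁻¹ * c₂⁻¹ * g₂⁻¹ := by rw [a5.eq]
        _ = g₁ * g₂ * (c₂ * g₁⁻¹) * c₂⁻¹ * g₂⁻¹ := by group
        _ = g₁ * g₂ * (g₁⁻¹ * c₂) * c₂⁻¹ * g₂⁻¹ := by rw [a3.inv_right.eq]
        _ = g₁ * g₂ * g₁⁻¹ * g₂⁻¹ := by group
        _ = ⁅g₁, g₂⁆ := (commutatorElement_def _ _).symm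
    calc d * ⁅g₁, g₂⁆ = (d * ⁅g₁, g₂⁆ * d⁻¹) * d := by group
      _ = ⁅g₁, g₂⁆ * d := by rw [e3]
  intro y hy
  exact Subgroup.mem_centralizer_iff.mp (hle hy) d rfl

end Group

end Vale.Agent.P180.H768
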