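import Vale.Agent.P180.H768.Bound2
import Vale.Agent.P180.H768.Step

/-!
P180, normal series: the induction for layers with good simple sections.
-/

namespace Vale.Agent.P180.H768.Gd

open Vale.Agent.P180

open scoped Nat commutatorElement

universe u

section Group

variable {G : Type} [Group G]

theorem RC.of_rcls {p q m : ℕ} {A B : Subgroup G} (h : RCls p m A B) : RC p q m A B :=
  fun K S _ _ f hK hf hx hp => Or.inl (h K S f hK hf hx hp)

theorem RC.of_le {p q m : ℕ} {A A' B : Subgroup G} (h : A ≤ A') (hA : RC p q m A B) :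
    RC p q m A' B :=
  fun K S _ _ f hK hf hx hp => hA K S f hK hf (fun x hxA => hx x (h hxA)) hp

theorem RC.of_cls {p q m : ℕ} {B : Subgroup G} (h : Cls p m B) : RC p q m ⊥ B := by
  intro K S _ _ f hK hf _ hp
  exact Or.inl (h (K.subgroupOf B) S
    (f.comp (Subgroup.subgroupOfEquivOfLe hK).toMonoidHom)
    (hf.comp (Subgroup.subgroupOfEquivOfLe hK).surjective) hp)

theorem RC_NN [Finite G] {p q m : ℕ} [Fact p.Prime] (hpm : p ≤ m) {Z A C B : Subgroup G} [Z.Normal]
    [A.Normal] [C.Normal] (hZ : ∀ z ∈ Z, ∀ g, z * g = g * z) {β : ℕ}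
    (hβ : Z.relIndex A ≤ β) (h : RC p q m C B) : RC p q (max m (β !)) (NN A C) B := by
  have hpm' : p ≤ max m (β !) := hpm.trans (le_max_left _ _)
  have h1 : RCls p (max m (β !)) (NN A C) (XX A C) := by
    refine RCls.of_comm hpm' ?_
    intro x hx y hy
    have := Subgroup.commutator_mem_commutator hx hy
    rwa [commutatorElement_def] at this
  have h2 : RCls p (max m (β !)) (XX A C) (actTriv Z A ⊓ C) := RCls_actTriv hpm' hZ
  have h3 : RCls p (max m (β !)) (actTriv Z A ⊓ C) C :=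
    RCls.of_index (K₀ := actTriv Z A) ((actTriv_index hβ).trans (le_max_right _ _)) le_rfl
  have h4 : RC p q (max m (β !)) C B := h.mono (le_max_left _ _)
  exact (RC.of_rcls ((h1.trans h2).trans h3)).trans h4

theorem rc_comap {p q m : ℕ} [Fact p.Prime] (hpm : p ≤ m) {H : Type} [Group H] [Finite G]
    [Finite H] {N Y M : Subgroup G} [N.Normal] (hNM : N ≤ M) (hY : IsPGroup p Y)
    (hM : RC p q m N M) {Z : Subgroup H} {π : H →* G ⧸ N}
    (hZ : ∀ z ∈ Z, ∀ h, z * h = h * z) (hZπ : Z ≤ π.ker)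
    (hcard : Nat.card π.ker = Nat.card Z * Nat.card Y) : RC p q m ⊥ (pull N π M) := by
  have hker : Cls p m π.ker := by
    obtain ⟨j, hj⟩ := IsPGroup.iff_card.mp hY
    have h1 : (Z.subgroupOf π.ker).index = p ^ j := by
      have h5 := Subgroup.card_mul_index (Z.subgroupOf π.ker)
      rw [hcard, Nat.card_congr (Subgroup.subgroupOfEquivOfLe hZπ).toEquiv, hj] at h5
      exact Nat.eq_of_mul_eq_mul_left Nat.card_pos h5
    have h2 : Group.IsSolvable π.ker :=
      solvable_of_central (fun z hz g => Subtype.ext (hZ _ hz g)) h1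
    exact Cls.of_solvable.mono hpm
  have h1 : pull N π N = π.ker := by
    change (N.map (QuotientGroup.mk' N)).comap π = π.ker
    rw [(Subgroup.map_eq_bot_iff _).mpr (QuotientGroup.ker_mk' N).ge, MonoidHom.comap_bot]
  have h2 : RC p q m (pull N π N) (pull N π M) := RC.pull le_rfl hNM π hM
  rw [h1] at h2
  exact (RC.of_cls hker).trans h2

end Group

/-- the bound of one step -/
def bd (n m : ℕ) : ℕ := n ! * (n * m)! * n

/-- the bound -/
def FF : ℕ → ℕ → ℕ → ℕ
  | 0, n, m => (bd n m) ^ 2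
  | j + 1, n, m => FF j n (max m ((bd n m)!))

variable {k : Type u} [Field k] [IsAlgClosed k] {p n : ℕ} [Fact p.Prime] [CharP k p]

theorem absorb {m j β : ℕ} (hpm : p ≤ m) {G : Type} [Group G] [Finite G] {Z A C B D : Subgroup G}
    [hAn : A.Normal] [hCn : C.Normal] [hBn : B.Normal] (hCB : C ≤ B)
    (hlay : ∀ x ∈ D, x ∈ C → ∀ y ∈ C, x * y * x⁻¹ * y⁻¹ ∈ A) (hRB : RC p n m C B)
    (hrest : Lay p n m D j B) (hZ : ∀ z ∈ Z, ∀ g, z * g = g * z)
    (hβ : Z.relIndex A ≤ β) (hD : IsPGroup p D) {a b : MonoidAlgebra k G} (hb : IsBlock b)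
    (ha : a ∈ Fix (cj k G) D) (hba : b = tr (cj k G) D ⊤ a) (hDn : Nat.card D ≤ n)
    (hST : ∀ N : Subgroup G, N.Normal → ∀ e : MonoidAlgebra k G, IsBlockOf N e → b * e ≠ 0 →
      ∀ g, cj k G g e = e) :
    ∃ (H : Type) (_ : Group H) (_ : Finite H) (Z' A' D' : Subgroup H) (_ : A'.Normal)
      (a' c : MonoidAlgebra k H) (hc : IsBlock c), IsPGroup p D' ∧ RC p n (max m (β !)) ⊥ A' ∧
      Lay p n (max m (β !)) D' j A' ∧ Z' ≤ A' ∧ (∀ z ∈ Z', ∀ g, z * g = g * z) ∧
      ¬ p ∣ Nat.card Z' ∧ a' ∈ Fix (cj k H) D' ∧ c = tr (cj k H) D' ⊤ a' ∧ Nat.card D' ≤ n ∧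
      IsMoritaEquivalent k hb.Alg hc.Alg := by
  have hZn : Z.Normal := by
    constructor
    intro z hz g
    rw [← hZ z hz g, mul_inv_cancel_right]
    exact hz
  have hbB := isBlock_iff.mp hb
  obtain ⟨N, hNdef⟩ : ∃ N, N = NN A C := ⟨_, rfl⟩
  have hNn : N.Normal := by rw [hNdef]; infer_instance
  have hNB : N ≤ B := by
    rw [hNdef]
    exact ((NN_le_XX A C).trans inf_le_left).trans hCB
  have hND : ∀ x ∈ D, x ∈ N → ∀ y ∈ N, x * y = y * x := by
    rw [hNdef]
    exact central_NN hlay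
  have hRN : RC p n (max m (β !)) N B := by
    rw [hNdef]
    exact RC_NN hpm hZ hβ hRB
  obtain ⟨e, he, hbe⟩ := exists_isPrimIn (ZAlg k N) ZAlg_comm hb.ne_zero
  have hcomm : e * b = b * e := commute_of_mem (SubAlg_top e) hbB.mem.2
  obtain ⟨x, z, hz, hzF, hez⟩ := covering he hb.idem (by rwa [hcomm]) ha hba
  have hYn : (pZ p N).Normal := pZ_normal p hNn
  have hRY : N ⊓ conjS x D ≤ pZ p N := by
    intro w hw
    obtain ⟨hwN, hwD⟩ := Subgroup.mem_inf.mp hw
    rw [mem_conjS] at hwD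
    refine ⟨hwN, fun n hn => ?_, ?_⟩
    · have h1 : x⁻¹ * n * x ∈ N := by
        have := hNn.conj_mem n hn x⁻¹
        simpa using this
      have h1' : x⁻¹ * w * x ∈ N := by
        have := hNn.conj_mem w hwN x⁻¹
        simpa using this
      have h2 := hND _ hwD h1' _ h1
      calc w * n = x * ((x⁻¹ * w * x) * (x⁻¹ * n * x)) * x⁻¹ := by group
        _ = x * ((x⁻¹ * n * x) * (x⁻¹ * w * x)) * x⁻¹ := by rw [h2]
        _ = n * w := by group
    · obtain ⟨m, hm⟩ := hD ⟨_, hwD⟩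
      refine ⟨m, ?_⟩
      have h3 : (x⁻¹ * w * x) ^ (p ^ m) = 1 := congrArg Subtype.val hm
      have h4 : (x⁻¹ * w * (x⁻¹)⁻¹) ^ (p ^ m) = 1 := by rwa [inv_inv]
      rw [conj_pow] at h4
      calc w ^ (p ^ m) = x * (x⁻¹ * w ^ (p ^ m) * (x⁻¹)⁻¹) * x⁻¹ := by group
        _ = 1 := by rw [h4, mul_one, mul_inv_cancel]
  have hYN : pZ p N ≤ N := fun w hw => hw.1
  have hYc : ∀ y ∈ pZ p N, ∀ x ∈ N, y * x = x * y := fun y hy => hy.2.1
  have hYp : IsPGroup p (pZ p N) := by
    rintro ⟨w, hw⟩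
    obtain ⟨m, hm⟩ := hw.2.2
    exact ⟨m, Subtype.ext hm⟩
  have hYD : pZ p N ≤ D := op_le p hYp hb.idem hb.ne_zero ha hba
  obtain ⟨H, iH, fH, Z', π, c, hc, hZ', hpZ', hZπ, -, hπ, hker, _, hMo, D', a', hD',
    ha', hca', hD'M⟩ := KP.main' hYp hYN hYc he (hST N hNn e he hbe) hb hbe
      ⟨tr (cj k G) (N ⊓ conjS x D) (pZ p N) z, KP.tr_mem_SubAlg hz, tr_mem_Fix hzF, by
        rw [tr_tr hzF hRY hYN]
        exact hez⟩ ha hba hYD
  obtain ⟨P, hPD, hP, a'', ha'', hca''⟩ := exists_sylow_trace (p := p) ha' hca'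
  have hpm' : p ≤ max m (β !) := hpm.trans (le_max_left _ _)
  have hBn' : (B.map (QuotientGroup.mk' N)).Normal :=
    Subgroup.Normal.map hBn _ (QuotientGroup.mk'_surjective N)
  refine ⟨H, iH, fH, Z', pull N π B, P, inferInstance, a'', c, hc, hP,
    rc_comap hpm' hNB hYp hRN hZ' hZπ hker,
    ((hrest.pull π hD'M hNB).mono (le_max_left _ _)).mono_D hPD, ?_, hZ', hpZ', ha'', hca'',
    ((Nat.card_le_card_of_injective _ (Subgroup.inclusion_injective hPD)).trans hD').trans hDn,
    hMo⟩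
  refine hZπ.trans ?_
  intro h hh
  exact mem_pull.mpr ⟨1, B.one_mem, (map_one _).trans (MonoidHom.mem_ker.mp hh).symm⟩

/-- The end of the reduction: what is needed once `G` cannot be reduced further. -/
theorem reduce {j m F : ℕ} (hpm : p ≤ m)
    (hend : ∀ (G : Type) [Group G] [Finite G] (Z A D : Subgroup G) [A.Normal]
      (a b : MonoidAlgebra k G), IsPGroup p D → RC p n m ⊥ A → Lay p n m D j A → Z ≤ A →
      (∀ z ∈ Z, ∀ g, z * g = g * z) → ¬ p ∣ Nat.card Z → ∀ hb : IsBlock b,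
      a ∈ Fix (cj k G) D → b = tr (cj k G) D ⊤ a → Nat.card D ≤ n →
      (∀ N : Subgroup G, N.Normal → ∀ e : MonoidAlgebra k G, IsBlockOf N e →
        b * e ≠ 0 → ∀ g, cj k G g e = e) → Z.relIndex A ≤ bd n m →
      ∃ (H : Type) (_ : Group H) (_ : Finite H) (c : MonoidAlgebra k H) (hc : IsBlock c),
        Nat.card H ≤ F ∧ IsMoritaEquivalent k hb.Alg hc.Alg) (i : ℕ) :
    ∀ (G : Type) [Group G] [Finite G] (Z A D : Subgroup G) [A.Normal] (a b : MonoidAlgebra k G),
      IsPGroup p D → RC p n m ⊥ A → Lay p n m D j A → Z ≤ A → (∀ z ∈ Z, ∀ g, z * g = g * z) →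
      ¬ p ∣ Nat.card Z → ∀ hb : IsBlock b,
      a ∈ Fix (cj k G) D → b = tr (cj k G) D ⊤ a → Nat.card D ≤ n → Z.index ≤ i →
      ∃ (H : Type) (_ : Group H) (_ : Finite H) (c : MonoidAlgebra k H) (hc : IsBlock c),
        Nat.card H ≤ F ∧ IsMoritaEquivalent k hb.Alg hc.Alg := by
  induction i with
  | zero =>
    intro G _ _ Z A D _ a b _ _ _ _ _ _ _ _ _ _ hi
    exact absurd (Nat.le_zero.mp hi) Z.index_ne_zero_of_finite
  | succ i ih =>
    intro G _ _ Z A D hAn a b hD hA hlay hZA hZ hpZ hb ha hba hDn hi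
    by_cases hST : ∀ N : Subgroup G, N.Normal → ∀ e : MonoidAlgebra k G, IsBlockOf N e →
      b * e ≠ 0 → ∀ g, cj k G g e = e
    swap
    · push Not at hST
      obtain ⟨N, hN, e, he, hbe, g, hg⟩ := hST
      obtain ⟨b', hb', _, hMo, x, a', ha', hb'a'⟩ := fong_reynolds he hb hbe ha hba
      have hZT : Z ≤ stabE e := by
        intro z hz
        rw [mem_stabE]
        exact cj_eq_self_of_commute he.mem.1 fun a _ => hZ z hz a
      have hT : (stabE e).index ≠ 1 := by
        rw [Ne, Subgroup.index_eq_one]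
        intro h
        apply hg
        rw [← mem_stabE, h]
        exact Subgroup.mem_top g
      have hT0 : (stabE e).index ≠ 0 := Subgroup.index_ne_zero_of_finite
      have hidx : (Z.subgroupOf (stabE e)).index ≤ i := by
        have h1 : Z.relIndex (stabE e) * (stabE e).index = Z.index :=
          Subgroup.relIndex_mul_index hZT
        have h2 : (Z.subgroupOf (stabE e)).index ≠ 0 := Subgroup.index_ne_zero_of_finite
        have h3 : Z.relIndex (stabE e) * 2 ≤ Z.relIndex (stabE e) * (stabE e).index :=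
          Nat.mul_le_mul_left _ (by omega)
        change Z.relIndex (stabE e) ≠ 0 at h2
        change Z.relIndex (stabE e) ≤ i
        omega
      have hMT : (A.subgroupOf (stabE e)).Normal := inferInstance
      have hMcls : RC p n m ⊥ (A.subgroupOf (stabE e)) := by
        have h1 := hA.subgroupOf (stabE e)
        rwa [Subgroup.bot_subgroupOf] at h1
      have hDp : IsPGroup p ((conjS x D).subgroupOf (stabE e)) := by
        rintro ⟨⟨w, hwT⟩, hw⟩
        rw [Subgroup.mem_subgroupOf, mem_conjS] at hw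
        obtain ⟨r, hr⟩ := hD ⟨_, hw⟩
        refine ⟨r, Subtype.ext (Subtype.ext ?_)⟩
        have h3 : (x⁻¹ * w * x) ^ (p ^ r) = 1 := congrArg Subtype.val hr
        have h4 : (x⁻¹ * w * (x⁻¹)⁻¹) ^ (p ^ r) = 1 := by rwa [inv_inv]
        rw [conj_pow] at h4
        change w ^ (p ^ r) = 1
        calc w ^ (p ^ r) = x * (x⁻¹ * w ^ (p ^ r) * (x⁻¹)⁻¹) * x⁻¹ := by group
          _ = 1 := by rw [h4, mul_one, mul_inv_cancel]
      obtain ⟨H, iH, fH, c, hc, hH, hM'⟩ := ih (stabE e) (Z.subgroupOf (stabE e))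
        (A.subgroupOf (stabE e)) _ a' b' hDp hMcls (hlay.subgroupOf (stabE e) x hAn)
        (Subgroup.comap_mono hZA)
        (fun z hz g => Subtype.ext (hZ _ hz g))
        (by rwa [Nat.card_congr (Subgroup.subgroupOfEquivOfLe hZT).toEquiv]) hb' ha' hb'a'
        ((card_subgroupOf_conjS_le _ x D).trans hDn) hidx
      exact ⟨H, iH, fH, c, hc, hH, hMo.trans k hM'⟩
    · by_cases hNR : ∀ N Y : Subgroup G, N.Normal → Y.Normal → Z ≤ N → N ≤ A → Y ≤ N →
        IsPGroup p Y → (∀ y ∈ Y, ∀ x ∈ N, y * x = x * y) → ∀ e : MonoidAlgebra k G,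
        IsBlockOf N e → b * e ≠ 0 →
        (∃ z ∈ SubAlg k N, z ∈ Fix (cj k G) Y ∧ e = tr (cj k G) Y N z) →
        Nat.card N = Nat.card Z * Nat.card Y
      swap
      · push Not at hNR
        obtain ⟨N, Y, hN, hYn, hZN, hNA, hYN, hY, hYc, e, he, hbe, hez, hcard⟩ := hNR
        have hYD : Y ≤ D := op_le p hY hb.idem hb.ne_zero ha hba
        obtain ⟨H, iH, fH, Z', π, c, hc, hZ', hpZ', hZπ, hidx', hπ, hker, _, hMo, D', a', hD',
          ha', hca', hD'M⟩ := KP.main' hY hYN hYc he (hST N hN e he hbe) hb hbe hez ha hba hYD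
        have hidx : Z'.index ≤ i := by
          have h1 : Nat.card Z * Nat.card Y ≤ Nat.card N := by
            rw [← card_sup_eq hpZ hY]
            exact Nat.card_le_card_of_injective _
              (Subgroup.inclusion_injective (sup_le hZN hYN))
          have h2 : Nat.card Z * Nat.card Y < Nat.card N :=
            lt_of_le_of_ne h1 (Ne.symm hcard)
          have h3 := Subgroup.card_mul_index N
          have h4 := Subgroup.card_mul_index Z
          have h5 : 0 < N.index := Nat.pos_of_ne_zero Subgroup.index_ne_zero_of_finite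
          have h6 : Nat.card Z * (Nat.card Y * N.index) < Nat.card Z * Z.index := by
            rw [h4, ← h3, ← mul_assoc]
            exact Nat.mul_lt_mul_of_pos_right h2 h5
          have h7 := Nat.lt_of_mul_lt_mul_left h6
          omega
        have hAn' : (A.map (QuotientGroup.mk' N)).Normal :=
          Subgroup.Normal.map hAn _ (QuotientGroup.mk'_surjective N)
        have hMcls : RC p n m ⊥ (pull N π A) :=
          rc_comap hpm hNA hY (RC.of_le bot_le hA) hZ' hZπ hker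
        have hMn'' : (pull N π A).Normal := inferInstance
        obtain ⟨P, hPD, hP, a'', ha'', hca''⟩ := exists_sylow_trace (p := p) ha' hca'
        obtain ⟨H', iH', fH', c', hc', hH', hM'⟩ := ih H Z' (pull N π A) P a'' c hP hMcls
          ((hlay.pull π hD'M hNA).mono_D hPD) (by
            refine hZπ.trans ?_
            intro h hh
            exact mem_pull.mpr ⟨1, A.one_mem, (map_one _).trans (MonoidHom.mem_ker.mp hh).symm⟩)
          hZ' hpZ' hc ha'' hca''
          (((Nat.card_le_card_of_injective _ (Subgroup.inclusion_injective hPD)).trans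
            hD').trans hDn) hidx
        exact ⟨H', iH', fH', c', hc', hH', hMo.trans k hM'⟩
      · exact hend G Z A D a b hD hA hlay hZA hZ hpZ hb ha hba hDn hST
          (caseB_bound hA hZA hZ hpZ hD hb ha hba hDn hST hNR)

theorem main (j : ℕ) : ∀ (m : ℕ), p ≤ m → ∀ (i : ℕ),
    ∀ (G : Type) [Group G] [Finite G] (Z A D : Subgroup G) [A.Normal] (a b : MonoidAlgebra k G),
      IsPGroup p D → RC p n m ⊥ A → Lay p n m D j A → Z ≤ A → (∀ z ∈ Z, ∀ g, z * g = g * z) →
      ¬ p ∣ Nat.card Z → ∀ hb : IsBlock b,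
      a ∈ Fix (cj k G) D → b = tr (cj k G) D ⊤ a → Nat.card D ≤ n → Z.index ≤ i →
      ∃ (H : Type) (_ : Group H) (_ : Finite H) (c : MonoidAlgebra k H) (hc : IsBlock c),
        Nat.card H ≤ FF j n m ∧ IsMoritaEquivalent k hb.Alg hc.Alg := by
  induction j with
  | zero =>
    intro m hpm
    refine reduce hpm ?_
    intro G _ _ Z A D _ a b hD hA hlay hZA hZ hpZ hb ha hba hDn hST hbound
    have hAtop : A = ⊤ := hlay
    rw [hAtop, Subgroup.relIndex_top_right] at hbound
    have hZn : Z.Normal := by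
      constructor
      intro z hz g
      rw [← hZ z hz g, mul_inv_cancel_right]
      exact hz
    obtain ⟨e, he, hbe⟩ := exists_isPrimIn (ZAlg k Z) ZAlg_comm hb.ne_zero
    have hrel : ¬ p ∣ (⊥ : Subgroup G).relIndex Z := by
      rwa [Subgroup.relIndex_bot_left]
    obtain ⟨H, iH, fH, _, _, c, hc, _, _, _, _, _, _, hH, hMo, _⟩ := KP.main
      (N := Z) (Y := ⊥) (D := D)
      IsPGroup.of_bot bot_le (by
        intro y hy x _
        rw [Subgroup.mem_bot] at hy
        rw [hy, one_mul, mul_one]) he (hST Z hZn e he hbe) hb hbe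
      ⟨_, Subalgebra.smul_mem _ he.mem.1 _,
        Subalgebra.smul_mem _ (Fix_mono _ bot_le he.mem.2) _,
        eq_tr_of_not_dvd p hrel he.mem.2⟩ ha hba bot_le
    refine ⟨H, iH, fH, c, hc, hH.trans ?_, hMo⟩
    rw [Subgroup.card_bot, one_mul]
    exact Nat.pow_le_pow_left hbound 2
  | succ j ihj =>
    intro m hpm
    refine reduce hpm ?_
    intro G _ _ Z A D _ a b hD hA hlay hZA hZ hpZ hb ha hba hDn hST hbound
    obtain ⟨C, B, hCn, hBn, hAC, hCB, hcen, hR, hrest⟩ := hlay
    obtain ⟨H, iH, fH, Z', A', D', hA'n, a', c, hc, hP, hA', hL, hZA', hZ', hpZ', ha', hca,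
      hD'n, hMo⟩ := absorb (n := n) hpm hCB hcen hR hrest hZ hbound hD hb ha hba hDn hST
    obtain ⟨H', iH', fH', c', hc', hH', hM'⟩ := ihj (max m ((bd n m)!))
      (hpm.trans (le_max_left _ _)) Z'.index H Z' A' D' a' c hP hA' hL hZA' hZ' hpZ' hc
      ha' hca hD'n le_rfl
    exact ⟨H', iH', fH', c', hc', hH', hMo.trans k hM'⟩

end Vale.Agent.P180.H768.Gd
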