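import Vale.Agent.P180.H768.Main

/-!
P180: blocks of groups with a normal series whose factors are of bounded type or meet the defect
group centrally.
-/

namespace Vale.Agent.P180.H768

open Vale.Agent.P180

open scoped Nat

universe u

theorem lay_top {G : Type} [Group G] [Finite G] {p m : ℕ} {D A : Subgroup G} [A.Normal]
    (h : D ≤ A) (i : ℕ) : Lay p m D (i + 1) A := by
  have h1 : Lay p m D 1 A := by
    refine ⟨⊤, ⊤, inferInstance, inferInstance, le_top, le_rfl, ?_, RCls.self p m ⊤, rfl⟩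
    intro x hx _ y _
    exact comm_mem (h hx)
  have h2 := h1.add i
  rwa [Nat.add_comm] at h2

theorem lay_of_series {G : Type} [Group G] [Finite G] {p m n : ℕ} {D : Subgroup G}
    (hDn : Nat.card D ≤ n) (l : ℕ) (N : ℕ → Subgroup G) [hNn : ∀ i, (N i).Normal]
    (hl : N l = ⊤) (hle : ∀ i < l, N i ≤ N (i + 1))
    (hlay : ∀ i < l, RCls p m (N i) (N (i + 1)) ∨
      ∀ x ∈ D, x ∈ N (i + 1) → ∀ y ∈ N (i + 1), x * y * x⁻¹ * y⁻¹ ∈ N i) (d : ℕ) :
    ∀ i ≤ l, n ≤ Nat.card (D ⊓ N i : Subgroup G) + d → Lay p m D (2 * d + 1) (N i) := by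
  classical
  have hmono : ∀ i j, i ≤ j → j ≤ l → N i ≤ N j := by
    intro i j hij
    induction j, hij using Nat.le_induction with
    | base => intro _; exact le_rfl
    | succ j hij ih => intro hj; exact (ih (by omega)).trans (hle j (by omega))
  induction d with
  | zero =>
    intro i _ hc
    have h1 : D ⊓ N i = D := by
      refine Subgroup.eq_of_le_of_card_ge inf_le_left ?_
      exact hDn.trans hc
    exact lay_top (by rw [← h1]; exact inf_le_right) _
  | succ d ih =>
    intro i hi hc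
    by_cases hD : D ≤ N i
    · exact lay_top hD _
    -- the first index where the intersection with `D` grows
    have hex : ∃ j, i ≤ j ∧ ¬ D ⊓ N j ≤ N i := by
      refine ⟨l, hi, ?_⟩
      rw [hl, inf_top_eq]
      exact hD
    obtain ⟨hj1, hj2⟩ := Nat.find_spec hex
    set j' := Nat.find hex with hj'
    have hij' : i ≠ j' := by
      intro h
      apply hj2
      rw [← h]
      exact inf_le_right
    obtain ⟨j, hjj⟩ : ∃ j, j' = j + 1 := ⟨j' - 1, by omega⟩
    have hij : i ≤ j := by omega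
    have hjD : D ⊓ N j ≤ N i := by
      by_contra hcon
      have := Nat.find_min' hex ⟨hij, hcon⟩
      omega
    have hj'l : j' ≤ l := Nat.find_min' hex ⟨hi, by rw [hl, inf_top_eq]; exact hD⟩
    have hjl : j < l := by omega
    rw [hjj] at hj2
    have hij1 : N i ≤ N j := hmono i j hij (by omega)
    have hcard : n ≤ Nat.card (D ⊓ N (j + 1) : Subgroup G) + d := by
      have h1 : D ⊓ N i < D ⊓ N (j + 1) := by
        refine lt_of_le_of_ne (inf_le_inf le_rfl (hij1.trans (hle j hjl))) ?_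
        intro h
        apply hj2
        rw [← h]
        exact inf_le_right
      have h2 : Nat.card (D ⊓ N i : Subgroup G) < Nat.card (D ⊓ N (j + 1) : Subgroup G) := by
        by_contra hcon
        exact h1.ne (Subgroup.eq_of_le_of_card_ge h1.le (not_lt.mp hcon))
      omega
    have hrec := ih (j + 1) (by omega) hcard
    have hC : ∀ x ∈ D, x ∈ N j → ∀ y ∈ N j, x * y * x⁻¹ * y⁻¹ ∈ N i := by
      intro x hx hxj y _
      exact comm_mem (hjD (Subgroup.mem_inf.mpr ⟨hx, hxj⟩))
    rcases hlay j hjl with h | h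
    · have h3 : Lay p m D (2 * d + 2) (N i) :=
        ⟨N j, N (j + 1), hNn j, hNn (j + 1), hij1, hle j hjl, hC, h, hrec⟩
      exact h3.succ
    · have h3 : Lay p m D (2 * d + 2) (N j) :=
        ⟨N (j + 1), N (j + 1), hNn (j + 1), hNn (j + 1), hle j hjl, le_rfl, h,
          RCls.self p m _, hrec⟩
      exact ⟨N j, N j, hNn j, hNn j, hij1, le_rfl, hC, RCls.self p m _, h3⟩

theorem final (k : Type u) [Field k] [IsAlgClosed k] (p : ℕ) [Fact p.Prime] [CharP k p]
    (n m : ℕ) :
    ∃ (r : ℕ) (H : Fin r → Type) (_ : ∀ i, Group (H i)) (_ : ∀ i, Finite (H i))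
      (c : ∀ i, MonoidAlgebra k (H i)) (hc : ∀ i, IsBlock (c i)),
      ∀ (G : Type) [Group G] [Finite G] (b : MonoidAlgebra k G) (hb : IsBlock b)
        (D : Subgroup G), IsDefectGroup b D → Nat.card D ≤ n →
        ∀ (l : ℕ) (N : ℕ → Subgroup G) [∀ i, (N i).Normal], N 0 = ⊥ → N l = ⊤ →
        (∀ i < l, N i ≤ N (i + 1)) →
        (∀ i < l, BoundedFactors p m ((N (i + 1)).map (QuotientGroup.mk' (N i))) ∨
          ∀ x ∈ D, x ∈ N (i + 1) → ∀ y ∈ N (i + 1), x * y * x⁻¹ * y⁻¹ ∈ N i) →
        ∃ i, IsMoritaEquivalent k hb.Alg (hc i).Alg := by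
  obtain ⟨r, H, hG, hF, c, hc, hfam⟩ := finite_family k (FF (2 * n + 1) n (max m p))
  refine ⟨r, H, hG, hF, c, hc, ?_⟩
  intro G _ _ b hb D hD hn l N _ h0 hl hle hlay
  obtain ⟨a, ha, hba⟩ := exists_trace hb (hb.isSummand hD.prop)
  obtain ⟨P, hPD, hP, a', ha', hba'⟩ := exists_sylow_trace (p := p) ha hba
  have hPn : Nat.card P ≤ n :=
    (Nat.card_le_card_of_injective _ (Subgroup.inclusion_injective hPD)).trans hn
  have hL : Lay p (max m p) P (2 * n + 1) (N 0) := by
    refine lay_of_series hPn l N hl hle ?_ n 0 (Nat.zero_le _) (Nat.le_add_left _ _)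
    intro i hi
    rcases hlay i hi with h | h
    · left
      exact (RCls.of_quot (cls_of_compositionFactors _ le_rfl h)).mono (le_max_left _ _)
    · right
      exact fun x hx => h x (hPD hx)
  rw [h0] at hL
  have hbot : Cls p (max m p) (⊥ : Subgroup G) :=
    (RCls.self p (max m p) (⊥ : Subgroup G)).of_bot
  obtain ⟨H', _, _, c', hc', hcard, hM⟩ := main (k := k) (n := n) (2 * n + 1) (max m p)
    (le_max_right m p) (⊥ : Subgroup G).index G ⊥ ⊥ P a' b hP hbot hL le_rfl
    (by
      intro z hz g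
      rw [Subgroup.mem_bot] at hz
      rw [hz, one_mul, mul_one])
    (by
      rw [Subgroup.card_bot]
      exact (Nat.Prime.one_lt Fact.out).ne' ∘ Nat.dvd_one.mp) hb ha' hba' hPn le_rfl
  obtain ⟨i, ⟨f⟩⟩ := hfam H' hcard c' hc'
  exact ⟨i, IsMoritaEquivalent.trans k hM (IsMoritaEquivalent.of_algEquiv k f)⟩

end Vale.Agent.P180.H768
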