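import Vale.Agent.P180.H768.Main2

/-!
P180: blocks of groups with a normal series whose layers have good simple sections or meet the defect
group centrally.
-/

namespace Vale.Agent.P180.H768.Gd

open Vale.Agent.P180

open scoped Nat

universe u

theorem lay_top {G : Type} [Group G] [Finite G] {p q m : ℕ} {D A : Subgroup G} [A.Normal]
    (h : D ≤ A) (i : ℕ) : Lay p q m D (i + 1) A := by
  have h1 : Lay p q m D 1 A := by
    refine ⟨⊤, ⊤, inferInstance, inferInstance, le_top, le_rfl, ?_, RC.self p q m ⊤, rfl⟩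
    intro x hx _ y _
    exact comm_mem (h hx)
  have h2 := h1.add i
  rwa [Nat.add_comm] at h2

theorem lay_of_series {G : Type} [Group G] [Finite G] {p q m n : ℕ} {D : Subgroup G}
    (hDn : Nat.card D ≤ n) (l : ℕ) (N : ℕ → Subgroup G) [hNn : ∀ i, (N i).Normal]
    (hl : N l = ⊤) (hle : ∀ i < l, N i ≤ N (i + 1))
    (hlay : ∀ i < l, RC p q m (N i) (N (i + 1)) ∨
      ∀ x ∈ D, x ∈ N (i + 1) → ∀ y ∈ N (i + 1), x * y * x⁻¹ * y⁻¹ ∈ N i) (d : ℕ) :
    ∀ i ≤ l, n ≤ Nat.card (D ⊓ N i : Subgroup G) + d → Lay p q m D (2 * d + 1) (N i) := by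
  classical
  have hmono : ∀ i j, i ≤ j → j ≤ l → N i ≤ N j := by
    intro i j hij
    induction j, hij using Nat.le_induction with
    | base => intro _; exact le_rfl
    | succ j hij ih => intro hj; exact (ih (by omega)).trans (hle j (by omega))
  induction d with
  | zero =>
    intro i _ hc
    have h1 : D ⊓ N i = D := by
      refine Subgroup.eq_of_le_of_card_ge inf_le_left ?_
      exact hDn.trans hc
    exact lay_top (by rw [← h1]; exact inf_le_right) _
  | succ d ih =>
    intro i hi hc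
    by_cases hD : D ≤ N i
    · exact lay_top hD _
    -- the first index where the intersection with `D` grows
    have hex : ∃ j, i ≤ j ∧ ¬ D ⊓ N j ≤ N i := by
      refine ⟨l, hi, ?_⟩
      rw [hl, inf_top_eq]
      exact hD
    obtain ⟨hj1, hj2⟩ := Nat.find_spec hex
    set j' := Nat.find hex with hj'
    have hij' : i ≠ j' := by
      intro h
      apply hj2
      rw [← h]
      exact inf_le_right
    obtain ⟨j, hjj⟩ : ∃ j, j' = j + 1 := ⟨j' - 1, by omega⟩
    have hij : i ≤ j := by omega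
    have hjD : D ⊓ N j ≤ N i := by
      by_contra hcon
      have := Nat.find_min' hex ⟨hij, hcon⟩
      omega
    have hj'l : j' ≤ l := Nat.find_min' hex ⟨hi, by rw [hl, inf_top_eq]; exact hD⟩
    have hjl : j < l := by omega
    rw [hjj] at hj2
    have hij1 : N i ≤ N j := hmono i j hij (by omega)
    have hcard : n ≤ Nat.card (D ⊓ N (j + 1) : Subgroup G) + d := by
      have h1 : D ⊓ N i < D ⊓ N (j + 1) := by
        refine lt_of_le_of_ne (inf_le_inf le_rfl (hij1.trans (hle j hjl))) ?_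
        intro h
        apply hj2
        rw [← h]
        exact inf_le_right
      have h2 : Nat.card (D ⊓ N i : Subgroup G) < Nat.card (D ⊓ N (j + 1) : Subgroup G) := by
        by_contra hcon
        exact h1.ne (Subgroup.eq_of_le_of_card_ge h1.le (not_lt.mp hcon))
      omega
    have hrec := ih (j + 1) (by omega) hcard
    have hC : ∀ x ∈ D, x ∈ N j → ∀ y ∈ N j, x * y * x⁻¹ * y⁻¹ ∈ N i := by
      intro x hx hxj y _
      exact comm_mem (hjD (Subgroup.mem_inf.mpr ⟨hx, hxj⟩))
    rcases hlay j hjl with h | h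
    · have h3 : Lay p q m D (2 * d + 2) (N i) :=
        ⟨N j, N (j + 1), hNn j, hNn (j + 1), hij1, hle j hjl, hC, h, hrec⟩
      exact h3.succ
    · have h3 : Lay p q m D (2 * d + 2) (N j) :=
        ⟨N (j + 1), N (j + 1), hNn (j + 1), hNn (j + 1), hle j hjl, le_rfl, h,
          RC.self p q m _, hrec⟩
      exact ⟨N j, N j, hNn j, hNn j, hij1, le_rfl, hC, RC.self p q m _, h3⟩

theorem core {k : Type u} [Field k] [IsAlgClosed k] {p : ℕ} [Fact p.Prime] [CharP k p]
    {n m : ℕ} (hpm : p ≤ m) {G : Type} [Group G] [Finite G] {b : MonoidAlgebra k G}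
    (hb : IsBlock b) {D : Subgroup G} (hD : IsDefectGroup b D) (hn : Nat.card D ≤ n) (l : ℕ)
    (N : ℕ → Subgroup G) [∀ i, (N i).Normal] (h0 : N 0 = ⊥) (hl : N l = ⊤)
    (hle : ∀ i < l, N i ≤ N (i + 1))
    (hlay : ∀ i < l, RC p n m (N i) (N (i + 1)) ∨
      ∀ x ∈ D, x ∈ N (i + 1) → ∀ y ∈ N (i + 1), x * y * x⁻¹ * y⁻¹ ∈ N i) :
    ∃ (H : Type) (_ : Group H) (_ : Finite H) (c : MonoidAlgebra k H) (hc : IsBlock c),
      Nat.card H ≤ FF (2 * n + 1) n m ∧ IsMoritaEquivalent k hb.Alg hc.Alg := by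
  obtain ⟨a, ha, hba⟩ := exists_trace hb (hb.isSummand hD.prop)
  obtain ⟨P, hPD, hP, a', ha', hba'⟩ := exists_sylow_trace (p := p) ha hba
  have hPn : Nat.card P ≤ n :=
    (Nat.card_le_card_of_injective _ (Subgroup.inclusion_injective hPD)).trans hn
  have hL : Lay p n m P (2 * n + 1) (N 0) := by
    refine lay_of_series hPn l N hl hle ?_ n 0 (Nat.zero_le _) (Nat.le_add_left _ _)
    intro i hi
    rcases hlay i hi with h | h
    · exact Or.inl h
    · right
      exact fun x hx => h x (hPD hx)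
  rw [h0] at hL
  exact main (k := k) (n := n) (2 * n + 1) m hpm (⊥ : Subgroup G).index G ⊥ ⊥ P a' b hP
    (RC.self p n m ⊥) hL le_rfl
    (by
      intro z hz g
      rw [Subgroup.mem_bot] at hz
      rw [hz, one_mul, mul_one])
    (by
      rw [Subgroup.card_bot]
      exact (Nat.Prime.one_lt Fact.out).ne' ∘ Nat.dvd_one.mp) hb ha' hba' hPn le_rfl

end Vale.Agent.P180.H768.Gd
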